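import Mathlib

/-!
# P227, quarter turns: an inequality of Prékopa–Leindler type on the circle

Two densities of period `π / 2` with ratios at most two are matched by a monotone map fixing two
points a quarter period apart; the gain of the matching beats the loss `(b - a) ^ 2 / 2`.
-/

namespace Vale.Agent.P227.Rot.Quarter

open MeasureTheory intervalIntegral Real Set Filter
open scoped Topology

noncomputable section

theorem sqrt_div_harmonic {f g : ℝ} (hf : 0 < f) (hg : 0 < g) (h1 : f ≤ 4 * g) (h2 : g ≤ 4 * f)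
    {e : ℝ} :
    2 * f * g / (f + g) * (1 + ((f - g) / (f + g)) ^ 2 / 2 - 5 / 2 * e ^ 2)
      ≤ (1 - 2 * e ^ 2) * √(f * g) := by
  set x := (f - g) / (f + g)
  set J := 2 * f * g / (f + g)
  set s := √(f * g)
  have hs : 0 < s := sqrt_pos.2 (mul_pos hf hg)
  have hs2 : s ^ 2 = f * g := sq_sqrt (mul_pos hf hg).le
  have hJ : 0 < J := div_pos (by positivity) (by linarith)
  have hJs : J ^ 2 = s ^ 2 * (1 - x ^ 2) := by
    simp only [J, x, hs2]; field_simp; ring
  have hx : x ^ 2 ≤ 9 / 25 := by
    simp only [x, div_pow]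
    rw [div_le_iff₀ (by positivity)]
    nlinarith
  have a1 : J * (1 + x ^ 2 / 2) ≤ s := by
    refine (sq_le_sq₀ (by positivity) hs.le).1 ?_
    rw [mul_pow, hJs]
    nlinarith [mul_nonneg (sq_nonneg s) (sq_nonneg (x ^ 2)),
      mul_nonneg (mul_nonneg (sq_nonneg s) (sq_nonneg (x ^ 2))) (sq_nonneg x)]
  have a2 : 2 * s ≤ 5 / 2 * J := by
    refine (sq_le_sq₀ (by positivity) (by positivity)).1 ?_
    rw [mul_pow, mul_pow, hJs]
    nlinarith [mul_le_mul_of_nonneg_left hx (sq_nonneg s)]
  nlinarith [mul_le_mul_of_nonneg_left a2 (sq_nonneg e)]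

theorem two_mul_le_sq_add {a b : ℝ} : 2 * a * b ≤ a ^ 2 + b ^ 2 := two_mul_le_add_sq a b

/-- A function vanishing at an end is bounded by the square integral of its derivative. -/
theorem sq_le_integral {e x : ℝ → ℝ} (hd : ∀ t, HasDerivAt e (x t) t) (hx : Continuous x)
    {u t : ℝ} (hut : u ≤ t) (hu : e u = 0) :
    e t ^ 2 ≤ (t - u) * ∫ s in u..t, x s ^ 2 := by
  have hint : ∀ r s : ℝ, IntervalIntegrable (fun s => x s ^ 2) volume r s :=
    fun r s => (hx.pow 2).intervalIntegrable r s
  have hftc : ∫ s in u..t, x s = e t := by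
    rw [integral_eq_sub_of_hasDerivAt (fun s _ => hd s) (hx.intervalIntegrable u t), hu, sub_zero]
  have hI : 0 ≤ ∫ s in u..t, x s ^ 2 := integral_nonneg hut fun s _ => sq_nonneg _
  rcases hut.eq_or_lt with rfl | h
  · simp [hu]
  set l := e t / (t - u)
  have h1 : ∫ s in u..t, 2 * l * x s ≤ ∫ s in u..t, (l ^ 2 + x s ^ 2) :=
    integral_mono_on hut ((hx.const_mul (2 * l)).intervalIntegrable u t)
      ((continuous_const.add (hx.pow 2)).intervalIntegrable u t) fun s _ => two_mul_le_sq_add
  rw [intervalIntegral.integral_const_mul, hftc,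
    intervalIntegral.integral_add intervalIntegrable_const (hint u t),
    intervalIntegral.integral_const, smul_eq_mul] at h1
  have e1 : l * (t - u) = e t := div_mul_cancel₀ _ (by linarith)
  nlinarith [mul_le_mul_of_nonneg_left h1 (by linarith : (0 : ℝ) ≤ t - u)]

/-- The Poincaré inequality with both ends fixed, with a simple constant. -/
theorem poincare {e x : ℝ → ℝ} (hd : ∀ t, HasDerivAt e (x t) t) (hx : Continuous x)
    {u l : ℝ} (hl : 0 ≤ l) (h0 : e u = 0) (h1 : e (u + l) = 0) :
    ∫ t in u..u + l, e t ^ 2 ≤ l ^ 2 / 8 * ∫ t in u..u + l, x t ^ 2 := by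
  have he : Continuous e := continuous_iff_continuousAt.2 fun t => (hd t).continuousAt
  have hi : ∀ r s : ℝ, IntervalIntegrable (fun t => x t ^ 2) volume r s :=
    fun r s => (hx.pow 2).intervalIntegrable r s
  have hie : ∀ r s : ℝ, IntervalIntegrable (fun t => e t ^ 2) volume r s :=
    fun r s => (he.pow 2).intervalIntegrable r s
  set mid := u + l / 2
  have left : ∫ t in u..mid, e t ^ 2 ≤ l ^ 2 / 8 * ∫ t in u..mid, x t ^ 2 := by
    refine (integral_mono_on (by simp only [mid]; linarith) (hie _ _)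
      (g := fun t => (t - u) * ∫ s in u..mid, x s ^ 2)
      (((continuous_id'.sub continuous_const).mul continuous_const).intervalIntegrable _ _)
      fun t ht => ?_).trans (le_of_eq ?_)
    · refine (sq_le_integral hd hx ht.1 h0).trans (mul_le_mul_of_nonneg_left ?_ (by linarith [ht.1]))
      exact integral_mono_interval le_rfl ht.1 ht.2
        (Eventually.of_forall fun s => sq_nonneg _) (hi _ _)
    · rw [intervalIntegral.integral_mul_const,
        intervalIntegral.integral_sub (continuous_id'.intervalIntegrable _ _)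
          intervalIntegrable_const, integral_id, intervalIntegral.integral_const, smul_eq_mul]
      simp only [mid]
      ring
  have right : ∫ t in mid..u + l, e t ^ 2 ≤ l ^ 2 / 8 * ∫ t in mid..u + l, x t ^ 2 := by
    have hd' : ∀ t, HasDerivAt (fun t => e (u + l - t)) (-(x (u + l - t))) t := fun t => by
      simpa [Function.comp_def] using
        (hd (u + l - t)).comp t ((hasDerivAt_id t).const_sub (u + l))
    have hx' : Continuous fun t => -x (u + l - t) :=
      (hx.comp (continuous_const.sub continuous_id')).neg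
    refine (integral_mono_on (by simp only [mid]; linarith) (hie _ _)
      (g := fun t => (u + l - t) * ∫ s in mid..u + l, x s ^ 2)
      (((continuous_const.sub continuous_id').mul continuous_const).intervalIntegrable _ _)
      fun t ht => ?_).trans (le_of_eq ?_)
    · have h := sq_le_integral hd' hx' (u := 0) (t := u + l - t) (by linarith [ht.2])
        (by simpa using h1)
      simp only [neg_sq, sub_sub_cancel, sub_zero] at h
      rw [integral_comp_sub_left (fun s => x s ^ 2) (u + l), sub_sub_cancel, sub_zero] at h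
      refine h.trans (mul_le_mul_of_nonneg_left ?_ (by linarith [ht.2]))
      exact integral_mono_interval ht.1 ht.2 le_rfl
        (Eventually.of_forall fun s => sq_nonneg _) (hi _ _)
    · rw [intervalIntegral.integral_mul_const,
        intervalIntegral.integral_sub intervalIntegrable_const
          (continuous_id'.intervalIntegrable _ _), integral_id, intervalIntegral.integral_const,
        smul_eq_mul]
      simp only [mid]
      ring
  rw [← integral_add_adjacent_intervals (hie u mid) (hie mid _),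
    ← integral_add_adjacent_intervals (hi u mid) (hi mid _), mul_add]
  exact add_le_add left right

/-- A monotone change of variable with its inverse. -/
theorem exists_inverse {F f : ℝ → ℝ} (hd : ∀ x, HasDerivAt F (f x) x) {m : ℝ} (hm : 0 < m)
    (hf : ∀ x, m ≤ f x) : ∃ I : ℝ → ℝ, Continuous I ∧ (∀ y, F (I y) = y) ∧ (∀ x, I (F x) = x)
      ∧ ∀ y, HasDerivAt I (f (I y))⁻¹ y := by
  have hdF : Differentiable ℝ F := fun x => (hd x).differentiableAt
  have hmono : StrictMono F := strictMono_of_deriv_pos fun x => by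
    rw [(hd x).deriv]; linarith [hf x]
  have hlow : ∀ {a b : ℝ}, a ≤ b → m * (b - a) ≤ F b - F a := fun {a b} hab =>
    Convex.mul_sub_le_image_sub_of_le_deriv convex_univ hdF.continuous.continuousOn
      hdF.differentiableOn (fun x _ => by rw [(hd x).deriv]; exact hf x) a trivial b trivial hab
  have hsurj : Function.Surjective F := by
    refine hdF.continuous.surjective ?_ ?_
    · refine tendsto_atTop.2 fun b => ?_
      filter_upwards [eventually_ge_atTop (0 : ℝ), eventually_ge_atTop ((b - F 0) / m)] with x h0 h1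
      have h := hlow h0
      have := (div_le_iff₀ hm).1 h1
      nlinarith
    · refine tendsto_atBot.2 fun b => ?_
      filter_upwards [eventually_le_atBot (0 : ℝ), eventually_le_atBot ((b - F 0) / m)] with x h0 h1
      have h := hlow h0
      have := (le_div_iff₀ hm).1 h1
      nlinarith
  set e := StrictMono.orderIsoOfSurjective F hmono hsurj
  refine ⟨e.symm, e.symm.continuous, fun y => e.apply_symm_apply y, fun x => e.symm_apply_apply x,
    fun y => ?_⟩
  exact (hd _).of_local_left_inverse e.symm.continuous.continuousAt (by linarith [hf (e.symm y)])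
    (Eventually.of_forall fun z => e.apply_symm_apply z)

/-- The transport inequality for two densities with the same mass over a period. -/
theorem circle_eq {f g : ℝ → ℝ} (hfc : Continuous f) (hgc : Continuous g)
    (hfp : ∀ x, 0 < f x) (hgp : ∀ x, 0 < g x)
    (hfT : Function.Periodic f (π / 2)) (hgT : Function.Periodic g (π / 2))
    (hf2 : ∀ x y, f x ≤ 2 * f y) (hg2 : ∀ x y, g x ≤ 2 * g y)
    (hI : ∫ x in (0 : ℝ)..π / 2, f x = ∫ x in (0 : ℝ)..π / 2, g x) :
    ∃ lb : ℝ → ℝ, Continuous lb ∧ Function.Periodic lb (π / 2)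
      ∧ (∀ θ, ∃ a b, (a + b) / 2 = θ ∧ |b - a| ≤ π / 4
          ∧ lb θ = (1 - (b - a) ^ 2 / 2) * √(f a * g b))
      ∧ ∫ x in (0 : ℝ)..π / 2, f x ≤ ∫ x in (0 : ℝ)..π / 2, lb x := by
  have hl0 : 0 < π / 4 := by positivity
  set l := π / 4 with hl
  rw [show π / 2 = l + l by simp only [hl]; ring] at hfT hgT hI ⊢
  have hfi : ∀ r s : ℝ, IntervalIntegrable f volume r s := fun r s => hfc.intervalIntegrable r s
  have hgi : ∀ r s : ℝ, IntervalIntegrable g volume r s := fun r s => hgc.intervalIntegrable r s
  set F := fun x : ℝ => ∫ s in (0 : ℝ)..x, f s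
  set G := fun x : ℝ => ∫ s in (0 : ℝ)..x, g s
  have hF : ∀ x, HasDerivAt F (f x) x := fun x => hfc.integral_hasStrictDerivAt 0 x |>.hasDerivAt
  have hG : ∀ x, HasDerivAt G (g x) x := fun x => hgc.integral_hasStrictDerivAt 0 x |>.hasDerivAt
  have hFs : ∀ x y, F y - F x = ∫ s in x..y, f s := fun x y => by
    simp only [F]; rw [integral_interval_sub_left (hfi _ _) (hfi _ _)]
  have hGs : ∀ x y, G y - G x = ∫ s in x..y, g s := fun x y => by
    simp only [G]; rw [integral_interval_sub_left (hgi _ _) (hgi _ _)]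
  -- two common fixed points
  obtain ⟨θ₀, hθ₀⟩ : ∃ θ₀, F (θ₀ + l) - F θ₀ = G (θ₀ + l) - G θ₀ := by
    set Φ := fun x => (F (x + l) - F x) - (G (x + l) - G x)
    have hΦc : Continuous Φ := by
      have c1 : Continuous F := continuous_iff_continuousAt.2 fun x => (hF x).continuousAt
      have c2 : Continuous G := continuous_iff_continuousAt.2 fun x => (hG x).continuousAt
      fun_prop
    have hneg : Φ l = -Φ 0 := by
      simp only [Φ, zero_add, hFs, hGs]
      linarith [integral_add_adjacent_intervals (hfi 0 l) (hfi l (l + l)),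
        integral_add_adjacent_intervals (hgi 0 l) (hgi l (l + l))]
    obtain ⟨x, -, hx⟩ : ∃ x ∈ uIcc (0 : ℝ) l, Φ x = 0 := by
      refine intermediate_value_uIcc hΦc.continuousOn ?_
      rw [hneg, mem_uIcc]
      rcases le_total (Φ 0) 0 with h | h
      · exact Or.inl ⟨h, by linarith⟩
      · exact Or.inr ⟨by linarith, h⟩
    exact ⟨x, sub_eq_zero.1 hx⟩
  have hFper : ∀ x, F (x + (l + l)) = F x + F (l + l) := fun x => by
    have h := hfT.intervalIntegral_add_eq x 0
    rw [zero_add] at h
    linarith [hFs x (x + (l + l))]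
  have hGper : ∀ x, G (x + (l + l)) = G x + G (l + l) := fun x => by
    have h := hgT.intervalIntegral_add_eq x 0
    rw [zero_add] at h
    linarith [hGs x (x + (l + l))]
  have hFG : F (l + l) = G (l + l) := hI
  -- the map
  have hmf : ∀ x, f 0 / 2 ≤ f x := fun x => by linarith [hf2 0 x]
  have hmg : ∀ x, g 0 / 2 ≤ g x := fun x => by linarith [hg2 0 x]
  obtain ⟨Gi, hGic, hGGi, hGiG, hGid⟩ := exists_inverse hG (by linarith [hgp 0]) hmg
  set T := fun x => Gi (F x - F θ₀ + G θ₀)
  have hT : ∀ x, HasDerivAt T (f x / g (T x)) x := fun x => by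
    have h := (hGid (F x - F θ₀ + G θ₀)).comp x (((hF x).sub_const (F θ₀)).add_const (G θ₀))
    simpa [T, Function.comp_def, div_eq_inv_mul] using h
  have hTper : ∀ x, T (x + (l + l)) = T x + (l + l) := fun x => by
    have h : G (T x + (l + l)) = G (T (x + (l + l))) := by
      simp only [T]
      rw [hGper, hGGi, hGGi, hFper, hFG]; ring
    have := congrArg Gi h
    rwa [hGiG, hGiG, eq_comm] at this
  have hfix0 : T θ₀ = θ₀ := by simp only [T, sub_self, zero_add]; exact hGiG θ₀
  have hfix1 : T (θ₀ + l) = θ₀ + l := by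
    have : F (θ₀ + l) - F θ₀ + G θ₀ = G (θ₀ + l) := by linarith
    simp only [T, this]; exact hGiG _
  have hfix2 : T (θ₀ + (l + l)) = θ₀ + (l + l) := by rw [hTper, hfix0]
  have hTc : Continuous T := continuous_iff_continuousAt.2 fun x => (hT x).continuousAt
  -- the midpoint parametrisation
  set M := fun x => (x + T x) / 2
  have hM : ∀ x, HasDerivAt M ((1 + f x / g (T x)) / 2) x := fun x =>
    ((hasDerivAt_id' x).add (hT x)).div_const 2
  obtain ⟨A, hAc, hMA, hAM, hAd⟩ := exists_inverse hM (m := 1 / 2) (by norm_num) fun x => by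
    have := div_pos (hfp x) (hgp (T x)); linarith
  have hTA : ∀ θ, T (A θ) = 2 * θ - A θ := fun θ => by
    have := hMA θ; simp only [M] at this; linarith
  set fa := fun θ => f (A θ)
  set gb := fun θ => g (2 * θ - A θ)
  set J := fun θ => 2 * fa θ * gb θ / (fa θ + gb θ)
  set e := fun θ => θ - A θ
  set x := fun θ => (fa θ - gb θ) / (fa θ + gb θ)
  have hA : ∀ θ, HasDerivAt A (2 * gb θ / (fa θ + gb θ)) θ := fun θ => by
    have h := hAd θ
    convert h using 1
    rw [hTA]
    simp only [fa, gb]
    have := hfp (A θ); have := hgp (2 * θ - A θ)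
    field_simp
    ring
  have he : ∀ θ, HasDerivAt e (x θ) θ := fun θ => by
    have h := (hasDerivAt_id' θ).sub (hA θ)
    refine h.congr_deriv ?_
    show 1 - 2 * g (2 * θ - A θ) / (f (A θ) + g (2 * θ - A θ))
      = (f (A θ) - g (2 * θ - A θ)) / (f (A θ) + g (2 * θ - A θ))
    have := hfp (A θ); have := hgp (2 * θ - A θ)
    field_simp
    ring
  have cf : Continuous fa := hfc.comp hAc
  have cg : Continuous gb := hgc.comp (by fun_prop)
  have hden : ∀ θ, fa θ + gb θ ≠ 0 := fun θ => (add_pos (hfp _) (hgp _)).ne'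
  have cJ : Continuous J := ((continuous_const.mul cf).mul cg).div (cf.add cg) hden
  have cx : Continuous x := (cf.sub cg).div (cf.add cg) hden
  have ce : Continuous e := continuous_id'.sub hAc
  -- periodicity
  have hAper : ∀ θ, A (θ + (l + l)) = A θ + (l + l) := fun θ => by
    have h : M (A θ + (l + l)) = M (A (θ + (l + l))) := by
      rw [hMA]
      simp only [M, hTper, hTA]
      ring
    have := congrArg A h
    rwa [hAM, hAM, eq_comm] at this
  set lb := fun θ => (1 - 2 * e θ ^ 2) * √(fa θ * gb θ)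
  have clb : Continuous lb := (continuous_const.sub (continuous_const.mul (ce.pow 2))).mul
    (cf.mul cg).sqrt
  have plb : Function.Periodic lb (l + l) := fun θ => by
    simp only [lb, e, fa, gb, hAper]
    rw [hfT, show 2 * (θ + (l + l)) - (A θ + (l + l)) = 2 * θ - A θ + (l + l) by ring, hgT,
      show θ + (l + l) - (A θ + (l + l)) = θ - A θ by ring]
  -- the displacement
  have hmon : Monotone A := monotone_of_deriv_nonneg (fun θ => (hA θ).differentiableAt) fun θ => by
    rw [(hA θ).deriv]
    exact div_nonneg (by linarith [hgp (2 * θ - A θ)]) (add_pos (hfp _) (hgp _)).le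
  have hAfix : ∀ u, T u = u → A u = u := fun u hu => by
    have := hAM u
    rwa [show M u = u by simp only [M, hu]; ring] at this
  have hA0 := hAfix _ hfix0
  have hA1 := hAfix _ hfix1
  have hA2 := hAfix _ hfix2
  have hTmon : Monotone T := monotone_of_deriv_nonneg (fun y => (hT y).differentiableAt) fun y => by
    rw [(hT y).deriv]; exact (div_pos (hfp _) (hgp _)).le
  have bound : ∀ u θ, A u = u → A (u + l) = u + l → T u = u → T (u + l) = u + l →
      θ ∈ Icc u (u + l) → |2 * e θ| ≤ l := by
    intro u θ h0 h1 h2 h3 hθ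
    have a1 := hmon hθ.1
    have a2 := hmon hθ.2
    rw [h0] at a1; rw [h1] at a2
    have b1 := hTmon a1
    have b2 := hTmon a2
    rw [h2, hTA] at b1; rw [h3, hTA] at b2
    simp only [e]
    rw [abs_le]; constructor <;> linarith
  have hA2' : A (θ₀ + l + l) = θ₀ + l + l := by rw [add_assoc]; exact hA2
  have hfix2' : T (θ₀ + l + l) = θ₀ + l + l := by rw [add_assoc]; exact hfix2
  have hb : ∀ θ, |2 * e θ| ≤ l := by
    intro θ
    have hep : Function.Periodic (fun θ => |2 * e θ|) (l + l) := fun θ => by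
      simp only [e, hAper]; ring_nf
    obtain ⟨y, hy, hey⟩ := hep.exists_mem_Ico (by linarith) θ θ₀
    rw [hey]
    rcases le_total y (θ₀ + l) with h | h
    · exact bound θ₀ y hA0 hA1 hfix0 hfix1 ⟨hy.1, h⟩
    · exact bound (θ₀ + l) y hA1 hA2' hfix1 hfix2' ⟨h, by linarith [hy.2]⟩
  refine ⟨lb, clb, plb, fun θ => ⟨A θ, 2 * θ - A θ, by ring, ?_, ?_⟩, ?_⟩
  · have := hb θ
    simp only [e] at this
    rwa [show 2 * θ - A θ - A θ = 2 * (θ - A θ) by ring]
  · simp only [lb, e, fa, gb]
    ring_nf
  -- the two intervals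
  have hfg : ∀ θ, fa θ ≤ 4 * gb θ ∧ gb θ ≤ 4 * fa θ := by
    have mean : ∀ (q : ℝ → ℝ) (c : ℝ), Continuous q → (∀ y, q y ≤ c) →
        ∫ y in (0 : ℝ)..l + l, q y ≤ c * (l + l) := fun q c hq hc => by
      refine (integral_mono_on (g := fun _ => c) (by linarith) (hq.intervalIntegrable _ _)
        intervalIntegrable_const fun y _ => hc y).trans (le_of_eq ?_)
      simp; ring
    have mean' : ∀ (q : ℝ → ℝ) (c : ℝ), Continuous q → (∀ y, c ≤ q y) →
        c * (l + l) ≤ ∫ y in (0 : ℝ)..l + l, q y := fun q c hq hc => by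
      refine le_trans (le_of_eq ?_) (integral_mono_on (f := fun _ => c) (by linarith)
        intervalIntegrable_const (hq.intervalIntegrable _ _) fun y _ => hc y)
      simp; ring
    intro θ
    have hf_lo := mean' f (fa θ / 2) hfc fun y => by linarith [hf2 (A θ) y]
    have hg_hi := mean g (2 * gb θ) hgc fun y => hg2 y _
    have hg_lo := mean' g (gb θ / 2) hgc fun y => by linarith [hg2 (2 * θ - A θ) y]
    have hf_hi := mean f (2 * fa θ) hfc fun y => hf2 y _
    have hI' : ∫ y in (0 : ℝ)..l + l, f y = ∫ y in (0 : ℝ)..l + l, g y := hI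
    constructor <;> nlinarith
  have half : ∀ u, A u = u → A (u + l) = u + l →
      ∫ y in u..u + l, f y ≤ ∫ y in u..u + l, lb y := by
    intro u h0 h1
    have hsub : ∫ y in u..u + l, J y = ∫ y in u..u + l, f y := by
      have h := integral_comp_mul_deriv (f := A) (f' := fun θ => 2 * gb θ / (fa θ + gb θ))
        (g := f) (a := u) (b := u + l) (fun θ _ => hA θ)
        (((continuous_const.mul cg).div (cf.add cg) hden).continuousOn) hfc
      rw [h0, h1] at h
      rw [← h]
      refine integral_congr fun θ _ => ?_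
      simp only [J, fa, Function.comp_apply]
      ring
    rw [← hsub]
    obtain ⟨θm, -, hmin⟩ := isCompact_Icc.exists_isMinOn (nonempty_Icc.2 (by linarith : u ≤ u + l))
      cJ.continuousOn
    set J0 := J θm
    have hJpos : ∀ θ, 0 < J θ := fun θ =>
      div_pos (mul_pos (mul_pos two_pos (hfp _)) (hgp _)) (add_pos (hfp _) (hgp _))
    have hJ2 : ∀ θ, J θ ≤ 2 * J0 := fun θ => by
      have hf' := hf2 (A θ) (A θm)
      have hg' := hg2 (2 * θ - A θ) (2 * θm - A θm)
      have p1 := hfp (A θ); have p2 := hgp (2 * θ - A θ)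
      have p3 := hfp (A θm); have p4 := hgp (2 * θm - A θm)
      simp only [J0, J, fa, gb]
      rw [← mul_div_assoc, div_le_div_iff₀ (by linarith) (by linarith)]
      nlinarith [mul_le_mul_of_nonneg_left hf' (mul_pos p2 p4).le,
        mul_le_mul_of_nonneg_left hg' (mul_pos p1 p3).le]
    have hpt : ∀ θ ∈ Icc u (u + l),
        J θ + J0 * (x θ ^ 2 / 2) - 5 * J0 * e θ ^ 2 ≤ lb θ := by
      intro θ hθ
      have h := sqrt_div_harmonic (hfp (A θ)) (hgp (2 * θ - A θ)) (hfg θ).1 (hfg θ).2 (e := e θ)
      have h1 : J0 ≤ J θ := hmin hθ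
      have h2 := hJ2 θ
      simp only [lb, J, x, fa, gb] at *
      nlinarith [mul_le_mul_of_nonneg_right h1 (sq_nonneg ((f (A θ) - g (2 * θ - A θ))
        / (f (A θ) + g (2 * θ - A θ)))), mul_le_mul_of_nonneg_right h2 (sq_nonneg (e θ))]
    have hP := poincare he cx hl0.le (show e u = 0 by simp [e, h0])
      (show e (u + l) = 0 by simp [e, h1])
    have hX : 0 ≤ ∫ t in u..u + l, x t ^ 2 := integral_nonneg (by linarith) fun t _ => sq_nonneg _
    have hJ0 : 0 < J0 := hJpos _
    have c1 : Continuous fun θ => J0 * (x θ ^ 2 / 2) := by fun_prop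
    have c2 : Continuous fun θ => 5 * J0 * e θ ^ 2 := by fun_prop
    have c3 : Continuous fun θ => J θ + J0 * (x θ ^ 2 / 2) := cJ.add c1
    have hint := integral_mono_on (f := fun θ => J θ + J0 * (x θ ^ 2 / 2) - 5 * J0 * e θ ^ 2)
      (by linarith : u ≤ u + l)
      ((c3.sub c2).intervalIntegrable (μ := volume) u (u + l))
      (clb.intervalIntegrable _ _) hpt
    rw [intervalIntegral.integral_sub (c3.intervalIntegrable _ _) (c2.intervalIntegrable _ _),
      intervalIntegral.integral_add (cJ.intervalIntegrable _ _) (c1.intervalIntegrable _ _),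
      intervalIntegral.integral_const_mul, intervalIntegral.integral_const_mul,
      intervalIntegral.integral_div] at hint
    have hl2 : l ^ 2 / 8 ≤ 1 / 10 := by
      have := pi_lt_d2
      simp only [hl]; nlinarith [pi_pos]
    have h5 := mul_le_mul_of_nonneg_left
      (hP.trans (mul_le_mul_of_nonneg_right hl2 hX)) hJ0.le
    linarith
  calc ∫ y in (0 : ℝ)..l + l, f y = ∫ y in θ₀..θ₀ + (l + l), f y := by
        have h := hfT.intervalIntegral_add_eq 0 θ₀
        rwa [zero_add] at h
    _ = (∫ y in θ₀..θ₀ + l, f y) + ∫ y in θ₀ + l..θ₀ + l + l, f y := by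
        rw [← add_assoc, integral_add_adjacent_intervals (hfi _ _) (hfi _ _)]
    _ ≤ (∫ y in θ₀..θ₀ + l, lb y) + ∫ y in θ₀ + l..θ₀ + l + l, lb y :=
        add_le_add (half θ₀ hA0 hA1) (half (θ₀ + l) hA1 hA2')
    _ = _ := by
        rw [integral_add_adjacent_intervals (clb.intervalIntegrable _ _)
          (clb.intervalIntegrable _ _), add_assoc]
        have h := plb.intervalIntegral_add_eq θ₀ 0
        rwa [zero_add] at h

/-- The inequality on the circle. -/
theorem circle {f g : ℝ → ℝ} (hfc : Continuous f) (hgc : Continuous g)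
    (hfp : ∀ x, 0 < f x) (hgp : ∀ x, 0 < g x)
    (hfT : Function.Periodic f (π / 2)) (hgT : Function.Periodic g (π / 2))
    (hf2 : ∀ x y, f x ≤ 2 * f y) (hg2 : ∀ x y, g x ≤ 2 * g y) :
    ∃ lb : ℝ → ℝ, Continuous lb ∧ Function.Periodic lb (π / 2) ∧ (∀ θ, 0 ≤ lb θ)
      ∧ (∀ θ, ∃ a b, (a + b) / 2 = θ ∧ |b - a| ≤ π / 4
          ∧ lb θ = (1 - (b - a) ^ 2 / 2) * √(f a * g b))
      ∧ √((∫ x in (0 : ℝ)..π / 2, f x) * ∫ x in (0 : ℝ)..π / 2, g x)
          ≤ ∫ x in (0 : ℝ)..π / 2, lb x := by
  have hp2 : (0 : ℝ) < π / 2 := by positivity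
  set I := ∫ x in (0 : ℝ)..π / 2, f x
  set I' := ∫ x in (0 : ℝ)..π / 2, g x
  have hI : 0 < I := intervalIntegral_pos_of_pos (hfc.intervalIntegrable _ _) hfp hp2
  have hI' : 0 < I' := intervalIntegral_pos_of_pos (hgc.intervalIntegrable _ _) hgp hp2
  set c := I / I'
  have hc : 0 < c := div_pos hI hI'
  obtain ⟨lb, hlc, hlT, hlb, hle⟩ := circle_eq hfc (hgc.const_mul c) hfp
    (fun x => mul_pos hc (hgp x)) hfT (fun x => by show c * _ = c * _; rw [hgT]) hf2
    (fun x y => by nlinarith [hg2 x y]) (by
      rw [intervalIntegral.integral_const_mul]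
      show I = c * I'
      simp only [c]; field_simp)
  have hsc : 0 < √c := sqrt_pos.2 hc
  refine ⟨fun θ => lb θ / √c, hlc.div_const _, fun θ => by show _ / _ = _ / _; rw [hlT],
    fun θ => ?_, fun θ => ?_, ?_⟩
  · obtain ⟨a, b, -, hd, e⟩ := hlb θ
    refine div_nonneg (e ▸ mul_nonneg ?_ (sqrt_nonneg _)) hsc.le
    have := pi_lt_d2
    nlinarith [abs_le.1 hd, pi_pos]
  · obtain ⟨a, b, hm, hd, e⟩ := hlb θ
    refine ⟨a, b, hm, hd, ?_⟩
    show lb θ / √c = _
    rw [e, mul_div_assoc]
    congr 1
    rw [← Real.sqrt_div' _ hc.le]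
    congr 1
    field_simp
  · rw [intervalIntegral.integral_div, le_div_iff₀ hsc, ← sqrt_mul (mul_pos hI hI').le,
      show I * I' * c = I * I by simp only [c]; field_simp, sqrt_mul_self hI.le]
    exact hle

end

end Vale.Agent.P227.Rot.Quarter
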