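import Vale.Agent.P227.Rot.Quarter.Induct
import Vale.Agent.P227.Log3.Zero

/-!
# P227: covering all but three coordinates

The theorem of space is the base case: a common reflection removes one dimension and a common
quarter turn removes two, until three coordinates are left.
-/

namespace Vale.Agent.P227.Rot.Quarter

open MeasureTheory Set Matrix Function Real
open scoped ENNReal RealInnerProductSpace

noncomputable section

theorem supp_smul {n : ℕ} {K : Set (Fin n → ℝ)} (hK : Ctr K) {c : ℝ} (hc : 0 ≤ c)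
    (u : Fin n → ℝ) : supp K (c • u) = c * supp K u := by
  refine le_antisymm (supp_le hK fun x hx => ?_) ?_
  · rw [smul_dotProduct, smul_eq_mul]
    exact mul_le_mul_of_nonneg_left (le_supp hK hx u) hc
  · obtain ⟨x, hx, he⟩ := exists_supp hK u
    rw [← he, ← smul_eq_mul, ← smul_dotProduct]
    exact le_supp hK hx _

/-- The midpoint inequality in space for all centred bodies. -/
theorem half_three {K L : Set (Fin 3 → ℝ)} (hK : Ctr K) (hL : Ctr L) :
    volume K * volume L ≤ volume (half K L) ^ 2 := by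
  rcases eq_or_ne (volume K) 0 with hKv | hKv
  · simp [hKv]
  rcases eq_or_ne (volume L) 0 with hLv | hLv
  · simp [hLv]
  set e := WithLp.linearEquiv 2 ℝ (Fin 3 → ℝ)
  have hesc : Continuous e.symm := PiLp.continuous_toLp 2 _
  have mp := PiLp.volume_preserving_ofLp (Fin 3)
  have himg : ∀ A : Set (Fin 3 → ℝ), e.symm '' A = WithLp.ofLp ⁻¹' A := by
    intro A
    ext y
    exact ⟨fun ⟨a, ha, he⟩ => he ▸ ha, fun hy => ⟨_, hy, rfl⟩⟩
  have hvol : ∀ A, MeasurableSet A → volume (e.symm '' A) = volume A := fun A hA => by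
    rw [himg, mp.measure_preimage hA.nullMeasurableSet]
  have hbody : ∀ A, Ctr A → volume A ≠ 0 → SymmBody (e.symm '' A) := fun A hA hv =>
    have hc : Convex ℝ (e.symm '' A) := hA.convex.linear_image e.symm.toLinearMap
    { compact := hA.compact.image hesc
      convex := hc
      interior_nonempty := by
        rw [nonempty_iff_ne_empty]
        intro he
        refine hv ?_
        rw [← hvol A hA.compact.measurableSet]
        refine measure_mono_null ?_ (hc.addHaar_frontier volume)
        rw [frontier, he, sdiff_empty]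
        exact subset_closure
      neg_mem := by
        rintro _ ⟨a, ha, rfl⟩
        exact ⟨-a, hA.neg_mem a ha, map_neg e.symm a⟩ }
  have hin : ∀ x u : Fin 3 → ℝ, ⟪e.symm u, e.symm x⟫ = u ⬝ᵥ x := fun x u => by
    rw [PiLp.inner_apply]
    exact Finset.sum_congr rfl fun i _ => by simp [e, mul_comm]
  have hs : ∀ A : Set (Fin 3 → ℝ), ∀ u, supportFn (e.symm '' A) (e.symm u) = supp A u := by
    intro A u
    simp only [supportFn, supp, image_image, hin]
  have h : _ ≤ _ := Log3.logBM (hbody K hK hKv) (hbody L hL hLv) (l := 1 / 2)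
    ⟨by norm_num, by norm_num⟩
  rw [hvol K hK.compact.measurableSet, hvol L hL.compact.measurableSet] at h
  have hsub : logSum (1 / 2) (e.symm '' K) (e.symm '' L) ⊆ e.symm '' half K L := by
    intro x hx
    refine ⟨e x, fun u => ?_, e.symm_apply_apply x⟩
    rcases eq_or_ne u 0 with rfl | hu
    · simp only [zero_dotProduct]
      exact Real.sqrt_nonneg _
    set r := ‖e.symm u‖
    have hr : 0 < r := norm_pos_iff.2 (e.symm.map_ne_zero_iff.2 hu)
    have h1 := hx (r⁻¹ • e.symm u) (by
      rw [norm_smul, norm_inv, Real.norm_of_nonneg hr.le, inv_mul_cancel₀ hr.ne'])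
    rw [← map_smul, ← e.symm_apply_apply x, hin, hs, hs, smul_dotProduct, supp_smul hK
      (inv_nonneg.2 hr.le), supp_smul hL (inv_nonneg.2 hr.le), smul_eq_mul,
      show (1 : ℝ) - 1 / 2 = 1 / 2 by norm_num, Real.mul_rpow (inv_nonneg.2 hr.le)
        (supp_nonneg hK u), Real.mul_rpow (inv_nonneg.2 hr.le) (supp_nonneg hL u),
      mul_mul_mul_comm, ← Real.rpow_add (inv_pos.2 hr),
      ← Real.mul_rpow (supp_nonneg hK u) (supp_nonneg hL u), ← Real.sqrt_eq_rpow] at h1
    norm_num at h1
    exact (mul_le_mul_iff_of_pos_left (inv_pos.2 hr)).1 h1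
  have h' := h.trans (measure_mono hsub)
  rw [hvol _ (ctr_half hK hL).compact.measurableSet] at h'
  refine le_trans (le_of_eq ?_) (pow_le_pow_left' h' 2)
  rw [mul_pow, ← ENNReal.rpow_natCast, ← ENNReal.rpow_natCast, ← ENNReal.rpow_mul,
    ← ENNReal.rpow_mul]
  norm_num

/-- The midpoint inequality with `n - 3` reflections. -/
theorem half_le_three : ∀ (m : ℕ) (S : Finset (Fin (m + 3))), S.card = m →
    ∀ K L : Set (Fin (m + 3) → ℝ), Ctr K → Ctr L → (∀ i ∈ S, FlipInv i K) →
      (∀ i ∈ S, FlipInv i L) → volume K * volume L ≤ volume (half K L) ^ 2 := by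
  intro m
  induction m with
  | zero => exact fun _ _ K L hK hL _ _ => half_three hK hL
  | succ m ih =>
    intro S hS K L hK hL hSK hSL
    obtain ⟨p, hp⟩ : S.Nonempty := Finset.card_pos.1 (by omega)
    set S' : Finset (Fin (m + 3)) := Finset.univ.filter fun j => p.succAbove j ∈ S
    have hS' : S'.card = m := by
      have : S'.card + 1 = S.card := card_filter_succAbove hp
      omega
    have hW := ctr_half hK hL
    have hm : ∀ A : Set (Fin (m + 3 + 1) → ℝ), IsCompact A →
        Measurable fun s => ENNReal.ofReal (Real.exp s) * volume (sec p A (Real.exp s)) :=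
      fun A hA => Real.measurable_exp.ennreal_ofReal.mul
        ((measurable_sec_volume p hA.measurableSet).comp Real.measurable_exp)
    have key := P047.Disproof.prekopa_real (hm K hK.compact) (hm L hL.compact) (hm _ hW.compact)
      fun a b => by
        rcases (sec p K (Real.exp a)).eq_empty_or_nonempty with ha | ha
        · simp [ha]
        rcases (sec p L (Real.exp b)).eq_empty_or_nonempty with hb | hb
        · simp [hb]
        have h1 := ih S' hS' _ _ (ctr_sec hK (hSK p hp) ha) (ctr_sec hL (hSL p hp) hb)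
          (fun j hj => flipInv_sec (hSK _ (Finset.mem_filter.1 hj).2) _)
          (fun j hj => flipInv_sec (hSL _ (Finset.mem_filter.1 hj).2) _)
        have h2 := h1.trans (pow_le_pow_left' (measure_mono (sec_half hK hL (hSK p hp) (hSL p hp)
          (Real.exp_pos a).le (Real.exp_pos b).le ha hb)) 2)
        have hmid : √(Real.exp a * Real.exp b) = Real.exp ((a + b) / 2) := by
          rw [← Real.exp_add, ← Real.exp_half]
        rw [hmid] at h2
        rw [mul_mul_mul_comm, mul_pow, ← ENNReal.ofReal_mul (Real.exp_pos a).le, ← Real.exp_add,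
          ← ENNReal.ofReal_pow (Real.exp_pos _).le, ← Real.exp_nat_mul,
          show ((2 : ℕ) : ℝ) * ((a + b) / 2) = a + b by push_cast; ring]
        exact mul_le_mul_right h2 _
    rw [volume_eq_exp p hK (hSK p hp), volume_eq_exp p hL (hSL p hp),
      volume_eq_exp p hW (flipInv_half hK hL (hSK p hp) (hSL p hp)),
      mul_mul_mul_comm, mul_pow, sq (2 : ℝ≥0∞)]
    exact mul_le_mul_right key _

/-- At most three coordinates are left uncovered and at least two are present. -/
theorem half_le_uncovered {n : ℕ} (hn : 2 ≤ n) (U : Finset (Fin n)) (hU : n ≤ U.card + 3)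
    {K L : Set (Fin n → ℝ)} (hK : Ctr K) (hL : Ctr L) (hUK : ∀ i ∈ U, FlipInv i K)
    (hUL : ∀ i ∈ U, FlipInv i L) : volume K * volume L ≤ volume (half K L) ^ 2 := by
  rcases hn.eq_or_lt with rfl | hn'
  · exact planar hK hL
  obtain ⟨m, rfl⟩ : ∃ m, n = m + 3 := ⟨n - 3, by omega⟩
  obtain ⟨V, hV, hc⟩ := Finset.exists_subset_card_eq (show m ≤ U.card by omega)
  exact half_le_three m V hc K L hK hL (fun i hi => hUK i (hV hi)) fun i hi => hUL i (hV hi)

/-- The midpoint inequality with reflections and quarter turns, three coordinates left. -/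
theorem half_le_cov : ∀ (q n : ℕ) (S U : Finset (Fin n)) (e : Fin q × Fin 2 ↪ Fin n),
    2 ≤ n → n ≤ U.card + 3 → (∀ i, i ∈ U ↔ i ∈ S ∨ ∃ k, e k = i) → (∀ k, e k ∉ S) →
    ∀ K L : Set (Fin n → ℝ), Ctr K → Ctr L → (∀ i ∈ S, FlipInv i K) → (∀ i ∈ S, FlipInv i L) →
      (∀ k, TurnInv (e (k, 0)) (e (k, 1)) K) → (∀ k, TurnInv (e (k, 0)) (e (k, 1)) L) →
      volume K * volume L ≤ volume (half K L) ^ 2 := by
  intro q
  induction q with
  | zero =>
    intro n S U e hn hcov hU _ K L hK hL hSK hSL _ _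
    obtain rfl : U = S := by
      ext i
      rw [hU]
      exact ⟨fun h => h.elim id fun ⟨k, _⟩ => k.1.elim0, Or.inl⟩
    exact half_le_uncovered hn U hcov hK hL hSK hSL
  | succ q ih =>
    intro n S U e hn hcov hU hS K L hK hL hSK hSL heK heL
    rcases lt_or_ge n 4 with hsmall | hbig
    · obtain h | h : n = 2 ∨ n = 3 := by omega
      · subst h; exact planar hK hL
      · subst h; exact half_three hK hL
    have h01 : e (0, 0) ≠ e (0, 1) := fun h => by simpa using e.injective h
    obtain ⟨m, rfl⟩ : ∃ m, n = m + 2 := ⟨n - 2, by omega⟩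
    obtain ⟨r, hr⟩ := Fin.exists_succAbove_eq h01.symm
    set p := e (0, 0) with hp
    have hne : ∀ k : Fin q × Fin 2, e (k.1.succ, k.2) ≠ p ∧ e (k.1.succ, k.2) ≠ p.succAbove r :=
      fun k => ⟨fun h => Fin.succ_ne_zero k.1 (congrArg Prod.fst (e.injective h)),
        fun h => Fin.succ_ne_zero k.1 (congrArg Prod.fst (e.injective (h.trans hr)))⟩
    have hex : ∀ k : Fin q × Fin 2, ∃ j, p.succAbove (r.succAbove j) = e (k.1.succ, k.2) := by
      intro k
      obtain ⟨j₁, hj₁⟩ := Fin.exists_succAbove_eq (hne k).1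
      obtain ⟨j, rfl⟩ := Fin.exists_succAbove_eq (y := r) (x := j₁)
        (fun h => (hne k).2 (by rw [← hj₁, h]))
      exact ⟨j, hj₁⟩
    choose ι hι using hex
    let e' : Fin q × Fin 2 ↪ Fin m := ⟨ι, fun a b h => by
      have := e.injective ((hι a).symm.trans
        ((congrArg (fun j => p.succAbove (r.succAbove j)) h).trans (hι b)))
      obtain ⟨h₁, h₂⟩ := Prod.ext_iff.1 this
      exact Prod.ext (Fin.succ_injective _ h₁) h₂⟩
    set U₁ := Finset.univ.filter fun j => p.succAbove j ∈ U with hU₁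
    set U₂ := Finset.univ.filter fun j => r.succAbove j ∈ U₁ with hU₂
    set S' : Finset (Fin m) := Finset.univ.filter fun j => p.succAbove (r.succAbove j) ∈ S
    have hpU : p ∈ U := (hU _).2 (Or.inr ⟨_, rfl⟩)
    have hrU : r ∈ U₁ :=
      Finset.mem_filter.2 ⟨Finset.mem_univ _, (hU _).2 (Or.inr ⟨(0, 1), hr.symm⟩)⟩
    have hcard : U₂.card + 2 = U.card := by
      rw [← card_filter_succAbove hpU, ← card_filter_succAbove hrU]
    have hU' : ∀ i, i ∈ U₂ ↔ i ∈ S' ∨ ∃ k, e' k = i := by
      intro i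
      simp only [U₂, U₁, S', Finset.mem_filter, Finset.mem_univ, true_and, hU]
      refine or_congr_right ⟨fun ⟨⟨k₁, k₂⟩, hk⟩ => ?_, fun ⟨k, hk⟩ =>
        ⟨(k.1.succ, k.2), by rw [← hι k, ← hk]; rfl⟩⟩
      rcases Fin.eq_zero_or_eq_succ k₁ with rfl | ⟨k', rfl⟩
      · fin_cases k₂
        · exact absurd hk.symm (Fin.succAbove_ne p _)
        · exact absurd (hr.trans hk) (fun h =>
            (Fin.succAbove_ne r i).symm (Fin.succAbove_right_injective h))
      · refine ⟨(k', k₂), ?_⟩
        have := (hι (k', k₂)).trans hk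
        exact Fin.succAbove_right_injective (Fin.succAbove_right_injective this)
    have hS' : ∀ k, e' k ∉ S' := fun k h => hS (k.1.succ, k.2) (by
      have := (Finset.mem_filter.1 h).2
      rwa [show e' k = ι k from rfl, hι] at this)
    refine turn_step (p := p) (r := r) hK hL (by rw [hr]; exact heK 0) (by rw [hr]; exact heL 0)
      fun a b c d ha hc => ?_
    have hTK0 : TurnInv p (p.succAbove r) K := by rw [hr]; exact heK 0
    have hTL0 : TurnInv p (p.succAbove r) L := by rw [hr]; exact heL 0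
    exact ih m S' U₂ e' (by omega) (by omega) hU' hS' _ _ (ctr_sec2 hK hTK0 ha)
      (ctr_sec2 hL hTL0 hc)
      (fun j hj => flipInv_sec (flipInv_sec (hSK _ (Finset.mem_filter.1 hj).2) _) _)
      (fun j hj => flipInv_sec (flipInv_sec (hSL _ (Finset.mem_filter.1 hj).2) _) _)
      (fun k => turnInv_sec (turnInv_sec (by
        show TurnInv (p.succAbove (r.succAbove (ι (k, 0)))) (p.succAbove (r.succAbove (ι (k, 1)))) K
        rw [hι, hι]; exact heK k.succ) _) _)
      (fun k => turnInv_sec (turnInv_sec (by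
        show TurnInv (p.succAbove (r.succAbove (ι (k, 0)))) (p.succAbove (r.succAbove (ι (k, 1)))) L
        rw [hι, hι]; exact heL k.succ) _) _)

/-- Reflections and quarter turns of one basis covering all but three coordinates, all exponents. -/
theorem comb_le_cov {n q : ℕ} {S : Finset (Fin n)} {e : Fin q × Fin 2 ↪ Fin n}
    (hn : 2 ≤ n) (hS : ∀ k, e k ∉ S) (hcov : n ≤ S.card + 2 * q + 3)
    (bs : Module.Basis (Fin n) ℝ (Fin n → ℝ))
    {K L : Set (Fin n → ℝ)} (hK : Ctr K) (hL : Ctr L)
    (hSK : ∀ i ∈ S, ∀ x ∈ K, x - (2 * bs.equivFun x i) • bs i ∈ K)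
    (hSL : ∀ i ∈ S, ∀ x ∈ L, x - (2 * bs.equivFun x i) • bs i ∈ L)
    (heK : ∀ k, ∀ x ∈ K, x - (bs.equivFun x (e (k, 0)) + bs.equivFun x (e (k, 1))) • bs (e (k, 0))
      + (bs.equivFun x (e (k, 0)) - bs.equivFun x (e (k, 1))) • bs (e (k, 1)) ∈ K)
    (heL : ∀ k, ∀ x ∈ L, x - (bs.equivFun x (e (k, 0)) + bs.equivFun x (e (k, 1))) • bs (e (k, 0))
      + (bs.equivFun x (e (k, 0)) - bs.equivFun x (e (k, 1))) • bs (e (k, 1)) ∈ L)
    (hKv : volume K ≠ 0) (hLv : volume L ≠ 0) {l : ℝ} (hl : l ∈ Icc (0 : ℝ) 1) :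
    volume K ^ (1 - l) * volume L ^ l ≤ volume (comb l K L) := by
  set E := bs.equivFun
  refine comb_le_equiv E hl ?_
  set U := S ∪ Finset.univ.map e
  have hU : U.card = S.card + 2 * q := by
    simp only [U]
    rw [Finset.card_union_of_disjoint, Finset.card_map, Finset.card_univ, Fintype.card_prod,
      Fintype.card_fin, Fintype.card_fin, mul_comm]
    exact Finset.disjoint_right.2 fun i hi => by
      obtain ⟨k, -, rfl⟩ := Finset.mem_map.1 hi
      exact hS k
  have he01 : ∀ k, e (k, 0) ≠ e (k, 1) := fun k h => by simpa using e.injective h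
  have hEc : Continuous E := E.toLinearMap.continuous_of_finiteDimensional
  have hctr : ∀ A, Ctr A → Ctr (E '' A) := fun A hA =>
    { compact := hA.compact.image hEc
      convex := hA.convex.linear_image E.toLinearMap
      nonempty := hA.nonempty.image E
      neg_mem := by
        rintro _ ⟨a, ha, rfl⟩
        exact ⟨-a, hA.neg_mem a ha, map_neg E a⟩ }
  have hflip : ∀ A, (∀ i ∈ S, ∀ x ∈ A, x - (2 * E x i) • bs i ∈ A) →
      ∀ i ∈ S, FlipInv i (E '' A) := by
    rintro A hA i hi _ ⟨x, hx, rfl⟩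
    refine ⟨_, hA i hi x hx, ?_⟩
    funext j
    rw [map_sub, map_smul]
    rcases eq_or_ne j i with rfl | h
    · simp [E, flip]; ring
    · simp [E, flip, h]
  have hturn : ∀ A, (∀ k, ∀ x ∈ A, x - (E x (e (k, 0)) + E x (e (k, 1))) • bs (e (k, 0))
      + (E x (e (k, 0)) - E x (e (k, 1))) • bs (e (k, 1)) ∈ A) →
      ∀ k, TurnInv (e (k, 0)) (e (k, 1)) (E '' A) := by
    intro A hA k
    refine turnInv_of_mem (he01 k) ?_
    rintro _ ⟨x, hx, rfl⟩
    refine ⟨_, hA k x hx, ?_⟩
    funext j
    rw [map_add, map_sub, map_smul, map_smul, turn_apply]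
    rcases eq_or_ne j (e (k, 0)) with rfl | h0
    · simp [E, he01 k]
    rcases eq_or_ne j (e (k, 1)) with rfl | h1
    · simp [E, (he01 k).symm]
    · simp [E, h0, h1]
  have hv : ∀ A, volume A ≠ 0 → volume (E '' A) ≠ 0 := fun A hA => by
    rw [show volume (E '' A) = ENNReal.ofReal |LinearMap.det E.toLinearMap| * volume A from
      Measure.addHaar_image_linearMap volume E.toLinearMap A]
    exact mul_ne_zero (by simp [(LinearEquiv.isUnit_det' E).ne_zero]) hA
  have hmem : ∀ i, i ∈ U ↔ i ∈ S ∨ ∃ k, e k = i := fun i => by simp [U]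
  exact comb_le
    (fun A => Ctr A ∧ (∀ i ∈ S, FlipInv i A) ∧ ∀ k, TurnInv (e (k, 0)) (e (k, 1)) A)
    (fun _ h => h.1)
    (fun A B l hA hB =>
      ⟨ctr_comb hA.1 hB.1 l, fun i hi => flipInv_comb hA.1 hB.1 l (hA.2.1 i hi) (hB.2.1 i hi),
        fun k => linear_comb_inv (turn_injective (he01 k)) (hA.2.2 k) (hB.2.2 k) l⟩)
    (fun A B hA hB => half_le_cov q n S U e hn (by omega) hmem hS A B hA.1 hB.1 hA.2.1 hB.2.1
      hA.2.2 hB.2.2)
    ⟨hctr K hK, hflip K hSK, hturn K heK⟩ ⟨hctr L hL, hflip L hSL, hturn L heL⟩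
    (hv K hKv) (hv L hLv) hl

end

end Vale.Agent.P227.Rot.Quarter
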