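import Vale.Agent.P227.Symmetric

/-!
# P227, quarter turns: sections over a plane

A common quarter turn of the coordinates `i`, `j` makes the sections over that plane symmetric, and
the four points of an orbit have the same section.
-/

namespace Vale.Agent.P227.Rot.Quarter

open MeasureTheory Set Matrix Function Real
open scoped ENNReal

noncomputable section

variable {n : ℕ}

/-- The quarter turn of the coordinates `i`, `j`, with `e i` sent to `e j`. -/
def turn (i j : Fin n) : (Fin n → ℝ) →ₗ[ℝ] (Fin n → ℝ) where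
  toFun x := fun k => if k = i then -x j else if k = j then x i else x k
  map_add' x y := by
    funext k
    simp only [Pi.add_apply]
    split_ifs <;> ring
  map_smul' c x := by
    funext k
    simp only [Pi.smul_apply, smul_eq_mul, RingHom.id_apply]
    split_ifs <;> ring

theorem turn_apply (i j k : Fin n) (x : Fin n → ℝ) :
    turn i j x k = if k = i then -x j else if k = j then x i else x k := rfl

theorem turn_injective {i j : Fin n} (h : i ≠ j) : Injective (turn i j) := by
  intro x y e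
  funext k
  have ei := congrFun e i
  have ej := congrFun e j
  have ek := congrFun e k
  simp only [turn_apply, if_neg h.symm, if_true, neg_inj] at ei ej
  rcases eq_or_ne k i with rfl | hi
  · exact ej
  rcases eq_or_ne k j with rfl | hj
  · exact ei
  simpa [turn_apply, hi, hj] using ek

/-- Invariance under the quarter turn. -/
def TurnInv (i j : Fin n) (K : Set (Fin n → ℝ)) : Prop := turn i j '' K = K

theorem TurnInv.mem {i j : Fin n} {K : Set (Fin n → ℝ)} (h : TurnInv i j K) {x : Fin n → ℝ}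
    (hx : x ∈ K) : turn i j x ∈ K :=
  h ▸ ⟨x, hx, rfl⟩

theorem turn_insertNth {p : Fin (n + 1)} {i j : Fin n} (z : ℝ) (y : Fin n → ℝ) :
    turn (p.succAbove i) (p.succAbove j) (p.insertNth z y : Fin (n + 1) → ℝ)
      = p.insertNth z (turn i j y) := by
  funext k
  refine p.succAboveCases ?_ (fun k => ?_) k
  · simp [turn_apply, (Fin.succAbove_ne p i).symm, (Fin.succAbove_ne p j).symm]
  · simp [turn_apply, Fin.succAbove_right_injective.eq_iff]

variable (p : Fin (n + 2)) (r : Fin (n + 1))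

/-- The point over `(a, b)`. -/
def ins (a b : ℝ) (y : Fin n → ℝ) : Fin (n + 2) → ℝ := p.insertNth a (r.insertNth b y)

/-- The section over `(a, b)`. -/
def sec2 (K : Set (Fin (n + 2) → ℝ)) (a b : ℝ) : Set (Fin n → ℝ) := sec r (sec p K a) b

theorem mem_sec2 {K : Set (Fin (n + 2) → ℝ)} {a b : ℝ} {y : Fin n → ℝ} :
    y ∈ sec2 p r K a b ↔ ins p r a b y ∈ K := Iff.rfl

theorem dot_ins (t₀ t₁ a b : ℝ) (v y : Fin n → ℝ) :
    ins p r t₀ t₁ v ⬝ᵥ ins p r a b y = t₀ * a + t₁ * b + v ⬝ᵥ y := by
  simp only [ins, dot_insertNth]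
  ring

theorem ins_surj (x : Fin (n + 2) → ℝ) : ∃ a b y, x = ins p r a b y :=
  ⟨x p, p.removeNth x r, r.removeNth (p.removeNth x), by
    rw [ins, Fin.insertNth_self_removeNth, Fin.insertNth_self_removeNth]⟩

theorem ins_apply_left (a b : ℝ) (y : Fin n → ℝ) : ins p r a b y p = a := by simp [ins]

theorem ins_apply_right (a b : ℝ) (y : Fin n → ℝ) : ins p r a b y (p.succAbove r) = b := by
  simp [ins]

theorem ins_apply_rest (a b : ℝ) (y : Fin n → ℝ) (k : Fin n) :
    ins p r a b y (p.succAbove (r.succAbove k)) = y k := by simp [ins]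

theorem ins_ext {x x' : Fin (n + 2) → ℝ} (h₀ : x p = x' p)
    (h₁ : x (p.succAbove r) = x' (p.succAbove r))
    (h₂ : ∀ k, x (p.succAbove (r.succAbove k)) = x' (p.succAbove (r.succAbove k))) : x = x' := by
  funext i
  refine p.succAboveCases h₀ (fun j => ?_) i
  exact r.succAboveCases h₁ h₂ j

theorem turn_ins (a b : ℝ) (y : Fin n → ℝ) :
    turn p (p.succAbove r) (ins p r a b y) = ins p r (-b) a y := by
  refine ins_ext p r ?_ ?_ fun k => ?_
  · simp [turn_apply, ins_apply_left, ins_apply_right]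
  · simp [turn_apply, ins_apply_left, ins_apply_right, Fin.succAbove_ne]
  · simp [turn_apply, ins_apply_rest, Fin.succAbove_ne, Fin.succAbove_right_injective.eq_iff]

theorem ins_comb (c d a b a' b' : ℝ) (y y' : Fin n → ℝ) :
    c • ins p r a b y + d • ins p r a' b' y'
      = ins p r (c * a + d * a') (c * b + d * b') (c • y + d • y') := by
  refine ins_ext p r ?_ ?_ fun k => ?_ <;> simp [ins_apply_left, ins_apply_right, ins_apply_rest]

variable {p r} {K L : Set (Fin (n + 2) → ℝ)}

theorem mem_turn (hT : TurnInv p (p.succAbove r) K) {a b : ℝ} {y : Fin n → ℝ}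
    (h : ins p r a b y ∈ K) : ins p r (-b) a y ∈ K := by
  rw [← turn_ins]
  exact hT.mem h

theorem mem_neg (hT : TurnInv p (p.succAbove r) K) {a b : ℝ} {y : Fin n → ℝ}
    (h : ins p r a b y ∈ K) : ins p r (-a) (-b) y ∈ K :=
  mem_turn hT (mem_turn hT h)

theorem sec2_turn (hT : TurnInv p (p.succAbove r) K) (a b : ℝ) :
    sec2 p r K (-b) a = sec2 p r K a b := by
  refine Set.ext fun y => ⟨fun h => ?_, fun h => mem_turn hT h⟩
  have := mem_turn hT (mem_turn hT (mem_turn hT h))
  simp only [neg_neg] at this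
  exact this

/-- Every point of the square spanned by an orbit has a larger section. -/
theorem sec2_mono (hK : Ctr K) (hT : TurnInv p (p.succAbove r) K) {a b X Y : ℝ}
    (h : |X| + |Y| ≤ 1) : sec2 p r K a b ⊆ sec2 p r K (X * a - Y * b) (X * b + Y * a) := by
  intro y hy
  have hc : ∀ σ : ℝ, |σ| ≤ 1 → ins p r (σ * a) (σ * b) y ∈ K := by
    intro σ hσ
    obtain ⟨h1, h2⟩ := abs_le.1 hσ
    have := hK.convex (show ins p r a b y ∈ K from hy) (mem_neg hT hy) (show (0 : ℝ) ≤ (1 + σ) / 2 by linarith)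
      (show (0 : ℝ) ≤ (1 - σ) / 2 by linarith) (by ring)
    rw [ins_comb, ← add_smul, show (1 + σ) / 2 + (1 - σ) / 2 = (1 : ℝ) by ring, one_smul] at this
    convert this using 2 <;> ring
  set u := 1 - |Y| with hu
  have hu0 : 0 ≤ u := by linarith [abs_nonneg X]
  have hX : ins p r (X / u * a) (X / u * b) y ∈ K := by
    refine hc _ ?_
    rw [abs_div, abs_of_nonneg hu0]
    exact div_le_one_of_le₀ (by linarith) hu0
  rcases le_total 0 Y with hY | hY
  · have := hK.convex hX (mem_turn hT hy) hu0 (abs_nonneg Y) (by linarith)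
    rw [ins_comb, ← add_smul, show u + |Y| = (1 : ℝ) by linarith, one_smul] at this
    show ins p r _ _ y ∈ K
    rcases eq_or_ne u 0 with h1 | h1
    · have hX0 : X = 0 := abs_nonpos_iff.1 (by linarith [abs_nonneg Y])
      convert this using 2 <;> simp [h1, hX0, abs_of_nonneg hY]
    · convert this using 2 <;> (rw [abs_of_nonneg hY]; field_simp; try ring)
  · have := hK.convex hX (mem_neg hT (mem_turn hT hy)) hu0 (abs_nonneg Y) (by linarith)
    rw [ins_comb, ← add_smul, show u + |Y| = (1 : ℝ) by linarith, one_smul] at this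
    show ins p r _ _ y ∈ K
    rcases eq_or_ne u 0 with h1 | h1
    · have hX0 : X = 0 := abs_nonpos_iff.1 (by linarith [abs_nonneg Y])
      convert this using 2 <;> simp [h1, hX0, abs_of_nonpos hY]
    · convert this using 2 <;> (rw [abs_of_nonpos hY]; field_simp; try ring)

theorem isClosed_sec2 (hK : IsCompact K) (a b : ℝ) : IsClosed (sec2 p r K a b) :=
  (hK.isClosed.preimage (continuous_insertNth_right p a)).preimage (continuous_insertNth_right r b)

theorem ctr_sec2 (hK : Ctr K) (hT : TurnInv p (p.succAbove r) K) {a b : ℝ}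
    (hne : (sec2 p r K a b).Nonempty) : Ctr (sec2 p r K a b) where
  compact := by
    refine (hK.compact.image (f := fun x => fun k => x (p.succAbove (r.succAbove k)))
      (continuous_pi fun k => continuous_apply _)).of_isClosed_subset (isClosed_sec2 hK.compact a b)
      fun y hy => ⟨_, hy, funext fun k => ins_apply_rest p r a b y k⟩
  convex := fun y hy w hw c d hc hd hcd => by
    have := hK.convex (show ins p r a b y ∈ K from hy) (show ins p r a b w ∈ K from hw) hc hd hcd
    rw [ins_comb, ← add_mul, ← add_mul, hcd, one_mul, one_mul] at this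
    exact this
  nonempty := hne
  neg_mem := fun y hy => by
    have h := hK.neg_mem _ (mem_neg hT hy)
    show ins p r a b (-y) ∈ K
    convert h using 1
    refine ins_ext p r ?_ ?_ fun k => ?_ <;> simp [ins_apply_left, ins_apply_right, ins_apply_rest]

/-- The larger absolute value over an orbit. -/
def orbitMax (t₀ t₁ a b : ℝ) : ℝ := max |t₀ * a + t₁ * b| |t₁ * a - t₀ * b|

theorem supp_sec2_add_le (hK : Ctr K) (hT : TurnInv p (p.succAbove r) K) {a b : ℝ}
    (hne : (sec2 p r K a b).Nonempty) (t₀ t₁ : ℝ) (v : Fin n → ℝ) :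
    supp (sec2 p r K a b) v + orbitMax t₀ t₁ a b ≤ supp K (ins p r t₀ t₁ v) := by
  obtain ⟨y, hy, he⟩ := exists_supp (ctr_sec2 hK hT hne) v
  have main : ∀ a' b', ins p r a' b' y ∈ K →
      |t₀ * a' + t₁ * b'| ≤ supp K (ins p r t₀ t₁ v) - v ⬝ᵥ y := by
    intro a' b' h
    have h1 := le_supp hK h (ins p r t₀ t₁ v)
    have h2 := le_supp hK (mem_neg hT h) (ins p r t₀ t₁ v)
    rw [dot_ins] at h1 h2
    rw [abs_le]
    constructor <;> linarith
  have h1 := main a b hy
  have h2 := main (-b) a (mem_turn hT hy)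
  rw [show t₀ * -b + t₁ * a = t₁ * a - t₀ * b by ring] at h2
  rw [← he]
  have := max_le h1 h2
  simp only [orbitMax]
  linarith

theorem sec2_half (hK : Ctr K) (hL : Ctr L) (hTK : TurnInv p (p.succAbove r) K)
    (hTL : TurnInv p (p.succAbove r) L) {a b c d e f : ℝ} (hzK : (sec2 p r K a b).Nonempty)
    (hwL : (sec2 p r L c d).Nonempty)
    (hsq : ∀ t₀ t₁, |t₀ * e + t₁ * f| ≤ √(orbitMax t₀ t₁ a b * orbitMax t₀ t₁ c d)) :
    half (sec2 p r K a b) (sec2 p r L c d) ⊆ sec2 p r (half K L) e f := by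
  intro y hy u
  obtain ⟨t₀, t₁, v, rfl⟩ := ins_surj p r u
  show ins p r t₀ t₁ v ⬝ᵥ ins p r e f y ≤ _
  rw [dot_ins]
  have hA := supp_nonneg (ctr_sec2 hK hTK hzK) v
  have hB := supp_nonneg (ctr_sec2 hL hTL hwL) v
  have h1 := supp_sec2_add_le hK hTK hzK t₀ t₁ v
  have h2 := supp_sec2_add_le hL hTL hwL t₀ t₁ v
  have hy' := hy v
  set A := supp (sec2 p r K a b) v
  set B := supp (sec2 p r L c d) v
  set C := orbitMax t₀ t₁ a b with hCd
  set D := orbitMax t₀ t₁ c d with hDd
  have hC : 0 ≤ C := (abs_nonneg _).trans (le_max_left _ _)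
  have hD : 0 ≤ D := (abs_nonneg _).trans (le_max_left _ _)
  calc t₀ * e + t₁ * f + v ⬝ᵥ y ≤ √(C * D) + √(A * B) :=
        add_le_add ((le_abs_self _).trans (hsq t₀ t₁)) hy'
    _ ≤ √((A + C) * (B + D)) := by
        refine le_sqrt_of_sq_le ?_
        rw [sqrt_mul hC, sqrt_mul hA]
        nlinarith [sq_sqrt hA, sq_sqrt hB, sq_sqrt hC, sq_sqrt hD,
          sq_nonneg (√A * √D - √C * √B)]
    _ ≤ _ := sqrt_le_sqrt (mul_le_mul h1 h2 (by positivity) (supp_nonneg hK _))

theorem turnInv_sec {m : ℕ} {q : Fin (m + 1)} {i j : Fin m}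
    {A : Set (Fin (m + 1) → ℝ)} (h : TurnInv (q.succAbove i) (q.succAbove j) A) (z : ℝ) :
    TurnInv i j (sec q A z) := by
  refine Set.ext fun w => ⟨?_, fun hw => ?_⟩
  · rintro ⟨y, hy, rfl⟩
    show (q.insertNth z (turn i j y) : Fin (m + 1) → ℝ) ∈ A
    rw [← turn_insertNth]
    exact h.mem hy
  · obtain ⟨x, hx, hxw⟩ := h.symm ▸ (show (q.insertNth z w : Fin (m + 1) → ℝ) ∈ A from hw)
    obtain ⟨z', y, rfl⟩ : ∃ z' y, x = q.insertNth z' y :=
      ⟨x q, q.removeNth x, (Fin.insertNth_self_removeNth _ x).symm⟩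
    rw [turn_insertNth] at hxw
    obtain ⟨rfl, rfl⟩ := Fin.insertNth_inj.1 hxw
    exact ⟨y, hx, rfl⟩

end

end Vale.Agent.P227.Rot.Quarter
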