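import Vale.Agent.P227.Rot.Quarter.Circle
import Vale.Agent.P227.Rot.Quarter.Sections

/-!
# P227, quarter turns: one turn removes two dimensions

In polar coordinates of the plane, Prékopa–Leindler along the rays gives a two-point inequality
for the ray integrals, and the circle lemma adds up the rays.
-/

namespace Vale.Agent.P227.Rot.Quarter

open MeasureTheory Set Matrix Function Real
open scoped ENNReal

noncomputable section

variable {n : ℕ} (p : Fin (n + 2)) (r : Fin (n + 1))

/-- The integral of the sections along a ray. -/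
def ray (K : Set (Fin (n + 2) → ℝ)) (θ : ℝ) : ℝ≥0∞ :=
  ∫⁻ u, ENNReal.ofReal (exp (2 * u)) * volume (sec2 p r K (exp u * cos θ) (exp u * sin θ))

variable {p r} {K L : Set (Fin (n + 2) → ℝ)}

theorem measurable_sec2_volume (hK : IsCompact K) :
    Measurable fun z : ℝ × ℝ => volume (sec2 p r K z.1 z.2) := by
  have hc : Continuous fun z : (ℝ × ℝ) × (Fin n → ℝ) => ins p r z.1.1 z.1.2 z.2 :=
    continuous_pi fun i => by
      refine p.succAboveCases ?_ (fun j => r.succAboveCases ?_ (fun k => ?_) j) i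
      · simp only [ins_apply_left]; fun_prop
      · simp only [ins_apply_right]; fun_prop
      · simp only [ins_apply_rest]; fun_prop
  exact measurable_measure_prodMk_left (hc.measurable hK.measurableSet)

theorem volume_eq_ray (hK : IsCompact K) :
    volume K = ∫⁻ θ in Ioo (-π) π, ray p r K θ := by
  have hm := measurable_sec2_volume (p := p) (r := r) hK
  have h1 : volume K = ∫⁻ z : ℝ × ℝ, volume (sec2 p r K z.1 z.2) := by
    rw [volume_eq_lintegral_sec p hK.measurableSet, Measure.volume_eq_prod,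
      lintegral_prod _ hm.aemeasurable]
    refine lintegral_congr fun a => ?_
    exact volume_eq_lintegral_sec r
      (hK.isClosed.preimage (continuous_insertNth_right p a)).measurableSet
  rw [h1, ← lintegral_comp_polarCoord_symm, polarCoord_target, Measure.volume_eq_prod,
    ← Measure.prod_restrict, lintegral_prod_symm]
  · refine lintegral_congr fun θ => ?_
    simp only [polarCoord_symm_apply, smul_eq_mul]
    rw [← range_exp, ← image_univ,
      lintegral_image_eq_lintegral_abs_deriv_mul MeasurableSet.univ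
        (fun x _ => (hasDerivAt_exp x).hasDerivWithinAt) exp_injective.injOn,
      Measure.restrict_univ]
    refine lintegral_congr fun u => ?_
    rw [abs_of_pos (exp_pos u), ← mul_assoc, ← ENNReal.ofReal_mul (exp_pos u).le, ← exp_add,
      ← two_mul]
  · exact ((measurable_fst.ennreal_ofReal).smul
      (hm.comp continuous_polarCoord_symm.measurable)).aemeasurable

theorem ray_add_pi_div_two (hT : TurnInv p (p.succAbove r) K) (θ : ℝ) :
    ray p r K (θ + π / 2) = ray p r K θ := by
  refine lintegral_congr fun u => ?_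
  rw [cos_add_pi_div_two, sin_add_pi_div_two, mul_neg, sec2_turn hT]

theorem ray_le (hK : Ctr K) (hT : TurnInv p (p.succAbove r) K) (θ d : ℝ) :
    ray p r K θ ≤ ENNReal.ofReal (1 + 2 * |cos d| * |sin d|) * ray p r K (θ + d) := by
  have h1 : |cos d| ^ 2 + |sin d| ^ 2 = 1 := by rw [sq_abs, sq_abs, cos_sq_add_sin_sq]
  set k := |cos d| + |sin d| with hk
  have hk0 : 0 < k := by
    nlinarith [abs_nonneg (cos d), abs_nonneg (sin d)]
  have hk2 : k ^ 2 = 1 + 2 * |cos d| * |sin d| := by rw [hk]; linarith [add_sq |cos d| |sin d|]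
  rw [← hk2]
  set G := fun u => ENNReal.ofReal (exp (2 * u))
    * volume (sec2 p r K (exp u * cos (θ + d)) (exp u * sin (θ + d))) with hG
  calc ray p r K θ ≤ ∫⁻ u, ENNReal.ofReal (k ^ 2) * G (u + -log k) := by
        refine lintegral_mono fun u => ?_
        have he : exp (u + -log k) = exp u / k := by
          rw [exp_add, exp_neg, exp_log hk0, ← div_eq_mul_inv]
        simp only [G]
        rw [← mul_assoc, ← ENNReal.ofReal_mul (sq_nonneg k),
          show k ^ 2 * exp (2 * (u + -log k)) = exp (2 * u) by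
            rw [two_mul, two_mul, exp_add (u + _), he, exp_add]; field_simp,
          he]
        refine mul_le_mul_right (measure_mono ?_) _
        refine (sec2_mono hK hT (X := cos d / k) (Y := sin d / k) (a := exp u * cos θ)
          (b := exp u * sin θ) ?_).trans (le_of_eq ?_)
        · rw [abs_div, abs_div, abs_of_pos hk0, ← add_div, div_self hk0.ne']
        · rw [cos_add, sin_add]
          congr 1 <;> ring
    _ = _ := by
        rw [lintegral_const_mul' _ _ ENNReal.ofReal_ne_top, lintegral_add_right_eq_self]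
        rfl

theorem ray_facts (hK : Ctr K) (hT : TurnInv p (p.succAbove r) K) (hv : volume K ≠ 0) :
    (∀ θ, ray p r K θ = ENNReal.ofReal (ray p r K θ).toReal)
      ∧ Continuous (fun θ => (ray p r K θ).toReal)
      ∧ (∀ θ, 0 < (ray p r K θ).toReal)
      ∧ Periodic (fun θ => (ray p r K θ).toReal) (π / 2)
      ∧ ∀ x y, (ray p r K x).toReal ≤ 2 * (ray p r K y).toReal := by
  have hvol := volume_eq_ray (p := p) (r := r) hK.compact
  have htwo : ∀ d, 1 + 2 * |cos d| * |sin d| ≤ 2 := fun d => by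
    have := two_mul_le_add_sq |cos d| |sin d|
    rw [sq_abs, sq_abs, cos_sq_add_sin_sq] at this
    linarith
  have hle : ∀ x y, ray p r K x ≤ ENNReal.ofReal 2 * ray p r K y := fun x y => by
    refine ((ray_le hK hT x (y - x)).trans
      (mul_le_mul_left (ENNReal.ofReal_le_ofReal (htwo _)) _)).trans ?_
    rw [add_sub_cancel]
  have htop : ∀ θ, ray p r K θ ≠ ⊤ := fun θ h => by
    have hall : ∀ y, ray p r K y = ⊤ := fun y => by
      have := hle θ y
      rw [h, top_le_iff, ENNReal.mul_eq_top] at this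
      rcases this with ⟨-, h'⟩ | ⟨h', -⟩
      · exact h'
      · exact absurd h' ENNReal.ofReal_ne_top
    refine (hK.compact.measure_lt_top (μ := volume)).ne ?_
    rw [hvol, lintegral_congr hall, setLIntegral_const, ENNReal.top_mul]
    rw [Real.volume_Ioo, ne_eq, ENNReal.ofReal_eq_zero, not_le]
    linarith [pi_pos]
  have hle' : ∀ x d, (ray p r K x).toReal
      ≤ (1 + 2 * |cos d| * |sin d|) * (ray p r K (x + d)).toReal := fun x d => by
    have h := ENNReal.toReal_mono (ENNReal.mul_ne_top ENNReal.ofReal_ne_top (htop _))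
      (ray_le hK hT x d)
    rwa [ENNReal.toReal_mul, ENNReal.toReal_ofReal (by positivity)] at h
  have h2 : ∀ x y, (ray p r K x).toReal ≤ 2 * (ray p r K y).toReal := fun x y => by
    have h := hle' x (y - x)
    rw [add_sub_cancel] at h
    exact h.trans (mul_le_mul_of_nonneg_right (htwo _) ENNReal.toReal_nonneg)
  refine ⟨fun θ => (ENNReal.ofReal_toReal (htop θ)).symm, ?_, fun θ => ?_,
    fun θ => by simp only [ray_add_pi_div_two hT], h2⟩
  · refine (LipschitzWith.of_le_add_mul' (4 * (ray p r K 0).toReal) fun x y => ?_).continuous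
    have h := hle' x (y - x)
    rw [add_sub_cancel] at h
    have hs : |cos (y - x)| * |sin (y - x)| ≤ dist x y := by
      rw [Real.dist_eq, abs_sub_comm]
      exact (mul_le_of_le_one_left (abs_nonneg _) (abs_cos_le_one _)).trans abs_sin_le_abs
    have hy := h2 y 0
    have := mul_le_mul hs hy ENNReal.toReal_nonneg dist_nonneg
    linarith
  · refine ENNReal.toReal_pos (fun h => hv ?_) (htop θ)
    have hall : ∀ y, ray p r K y = 0 := fun y => by
      simpa [h] using hle y θ
    rw [hvol, lintegral_congr hall, lintegral_zero]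

theorem square_bound {μ e R S : ℝ} (he : 2 * e ^ 2 ≤ 1) (hR : 0 ≤ R) (hS : 0 ≤ S) (t₀ t₁ : ℝ) :
    |t₀ * (√(1 - 2 * e ^ 2) * √(R * S) * cos μ) + t₁ * (√(1 - 2 * e ^ 2) * √(R * S) * sin μ)|
      ≤ √(orbitMax t₀ t₁ (R * cos (μ - e)) (R * sin (μ - e))
        * orbitMax t₀ t₁ (S * cos (μ + e)) (S * sin (μ + e))) := by
  set x := t₀ * cos μ + t₁ * sin μ with hx
  set y := t₁ * cos μ - t₀ * sin μ with hy
  set c := cos e
  set s := sin e
  have hcs : c ^ 2 + s ^ 2 = 1 := cos_sq_add_sin_sq e
  have hse : s ^ 2 ≤ e ^ 2 := sq_le_sq.2 abs_sin_le_abs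
  have key : (1 - 2 * e ^ 2) * x ^ 2
      ≤ max |x * c - y * s| |y * c + x * s| * max |x * c + y * s| |y * c - x * s| := by
    rcases le_total (y ^ 2) (x ^ 2) with h | h
    · refine le_trans ?_ (mul_le_mul (le_max_left _ _) (le_max_left _ _) (abs_nonneg _)
        ((abs_nonneg _).trans (le_max_left _ _)))
      rw [← abs_mul]
      refine le_trans ?_ (le_abs_self _)
      nlinarith [mul_le_mul_of_nonneg_left h (sq_nonneg s),
        mul_le_mul_of_nonneg_right hse (sq_nonneg x)]
    · refine le_trans ?_ (mul_le_mul (le_max_right _ _) (le_max_right _ _) (abs_nonneg _)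
        ((abs_nonneg _).trans (le_max_left _ _)))
      rw [← abs_mul]
      refine le_trans ?_ (le_abs_self _)
      have h' : 0 ≤ c ^ 2 * (y ^ 2 - x ^ 2) := mul_nonneg (sq_nonneg c) (sub_nonneg.2 h)
      nlinarith [mul_le_mul_of_nonneg_right hse (sq_nonneg x)]
  have scale : ∀ T a a' b b' : ℝ, 0 ≤ T → a = T * a' → b = T * b' →
      max |a| |b| = T * max |a'| |b'| := by
    rintro T a a' b b' hT rfl rfl
    rw [abs_mul, abs_mul, abs_of_nonneg hT, mul_max_of_nonneg _ _ hT]
  have e1 : orbitMax t₀ t₁ (R * cos (μ - e)) (R * sin (μ - e))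
      = R * max |x * c - y * s| |y * c + x * s| :=
    scale R _ _ _ _ hR (by rw [cos_sub, sin_sub, hx, hy]; ring)
      (by rw [cos_sub, sin_sub, hx, hy]; ring)
  have e2 : orbitMax t₀ t₁ (S * cos (μ + e)) (S * sin (μ + e))
      = S * max |x * c + y * s| |y * c - x * s| :=
    scale S _ _ _ _ hS (by rw [cos_add, sin_add, hx, hy]; ring)
      (by rw [cos_add, sin_add, hx, hy]; ring)
  rw [e1, e2]
  refine le_sqrt_of_sq_le ?_
  rw [sq_abs, show t₀ * (√(1 - 2 * e ^ 2) * √(R * S) * cos μ)
      + t₁ * (√(1 - 2 * e ^ 2) * √(R * S) * sin μ) = √(1 - 2 * e ^ 2) * √(R * S) * x by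
    rw [hx]; ring, mul_pow, mul_pow, sq_sqrt (by linarith), sq_sqrt (mul_nonneg hR hS)]
  calc (1 - 2 * e ^ 2) * (R * S) * x ^ 2 = R * S * ((1 - 2 * e ^ 2) * x ^ 2) := by ring
    _ ≤ R * S * _ := mul_le_mul_of_nonneg_left key (mul_nonneg hR hS)
    _ = _ := by ring

theorem ray_half (hK : Ctr K) (hL : Ctr L) (hTK : TurnInv p (p.succAbove r) K)
    (hTL : TurnInv p (p.succAbove r) L)
    (ih : ∀ a b c d : ℝ, (sec2 p r K a b).Nonempty → (sec2 p r L c d).Nonempty →
      volume (sec2 p r K a b) * volume (sec2 p r L c d)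
        ≤ volume (half (sec2 p r K a b) (sec2 p r L c d)) ^ 2)
    {α β : ℝ} (hd : |β - α| ≤ π / 4) :
    ENNReal.ofReal ((1 - (β - α) ^ 2 / 2) ^ 2) * (ray p r K α * ray p r L β)
      ≤ ray p r (half K L) ((α + β) / 2) ^ 2 := by
  set e := (β - α) / 2 with he
  set μ := (α + β) / 2
  have he2 : 2 * e ^ 2 < 1 := by
    have hp := pi_lt_d2
    have h := (abs_le.1 hd)
    rw [he]
    nlinarith
  have hw : (1 - (β - α) ^ 2 / 2) = 1 - 2 * e ^ 2 := by rw [he]; ring
  have hw0 : 0 < 1 - 2 * e ^ 2 := by linarith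
  rw [hw]
  set ρ := √(1 - 2 * e ^ 2) with hρ
  have hρ0 : 0 < ρ := sqrt_pos.2 hw0
  have hρ2 : ρ ^ 2 = 1 - 2 * e ^ 2 := sq_sqrt hw0.le
  have hW := ctr_half hK hL
  set H := fun m => ENNReal.ofReal (exp (2 * m))
    * volume (sec2 p r (half K L) (ρ * exp m * cos μ) (ρ * exp m * sin μ))
  have hm : ∀ (A : Set (Fin (n + 2) → ℝ)) (k θ : ℝ), IsCompact A → Measurable fun u =>
      ENNReal.ofReal (exp (2 * u)) * volume (sec2 p r A (k * exp u * cos θ) (k * exp u * sin θ)) :=
    fun A k θ hA => (measurable_exp.comp (measurable_const_mul 2)).ennreal_ofReal.mul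
      ((measurable_sec2_volume hA).comp (Measurable.prodMk (by fun_prop) (by fun_prop)))
  have hm1 : ∀ (A : Set (Fin (n + 2) → ℝ)) (θ : ℝ), IsCompact A → Measurable fun u =>
      ENNReal.ofReal (exp (2 * u)) * volume (sec2 p r A (exp u * cos θ) (exp u * sin θ)) :=
    fun A θ hA => by simpa using hm A 1 θ hA
  have key : ray p r K α * ray p r L β ≤ (∫⁻ m, H m) ^ 2 := by
    refine P047.Disproof.prekopa_real (hm1 K α hK.compact) (hm1 L β hL.compact)
      (hm _ ρ μ hW.compact) fun u v => ?_
    rcases (sec2 p r K (exp u * cos α) (exp u * sin α)).eq_empty_or_nonempty with h | ha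
    · simp [h]
    rcases (sec2 p r L (exp v * cos β) (exp v * sin β)).eq_empty_or_nonempty with h | hb
    · simp [h]
    have hα : α = μ - e := by simp only [μ, he]; ring
    have hβ : β = μ + e := by simp only [μ, he]; ring
    have hmid : √(exp u * exp v) = exp ((u + v) / 2) := by rw [← exp_add, ← exp_half]
    have h2 := (ih _ _ _ _ ha hb).trans (pow_le_pow_left' (measure_mono
      (sec2_half hK hL hTK hTL (e := ρ * exp ((u + v) / 2) * cos μ)
        (f := ρ * exp ((u + v) / 2) * sin μ) ha hb fun t₀ t₁ => by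
          rw [← hmid, hα, hβ, hρ]
          exact square_bound he2.le (exp_pos u).le (exp_pos v).le t₀ t₁)) 2)
    rw [mul_mul_mul_comm, mul_pow, ← ENNReal.ofReal_mul (exp_pos _).le, ← exp_add,
      ← ENNReal.ofReal_pow (exp_pos _).le, ← exp_nat_mul,
      show ((2 : ℕ) : ℝ) * (2 * ((u + v) / 2)) = 2 * u + 2 * v by push_cast; ring]
    exact mul_le_mul_right h2 _
  have hH : ENNReal.ofReal (1 - 2 * e ^ 2) * ∫⁻ m, H m = ray p r (half K L) μ := by
    rw [← lintegral_const_mul' _ _ ENNReal.ofReal_ne_top]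
    show _ = ∫⁻ u, _
    rw [← lintegral_add_right_eq_self (fun u => ENNReal.ofReal (exp (2 * u))
      * volume (sec2 p r (half K L) (exp u * cos μ) (exp u * sin μ))) (log ρ)]
    refine lintegral_congr fun m => ?_
    simp only [H]
    rw [← mul_assoc, ← ENNReal.ofReal_mul hw0.le, exp_add m, exp_log hρ0, mul_comm (exp m) ρ,
      ← hρ2]
    congr 2
    rw [mul_add, exp_add, two_mul (log ρ), exp_add, exp_log hρ0]
    ring
  calc ENNReal.ofReal ((1 - 2 * e ^ 2) ^ 2) * (ray p r K α * ray p r L β)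
      ≤ ENNReal.ofReal ((1 - 2 * e ^ 2) ^ 2) * (∫⁻ m, H m) ^ 2 := mul_le_mul_right key _
    _ = _ := by rw [ENNReal.ofReal_pow hw0.le, ← mul_pow, hH]

theorem setLIntegral_four {q : ℝ → ℝ} (hc : Continuous q) (hT : Periodic q (π / 2))
    (h0 : ∀ θ, 0 ≤ q θ) :
    ∫⁻ θ in Ioo (-π) π, ENNReal.ofReal (q θ)
      = ENNReal.ofReal (4 * ∫ θ in (0 : ℝ)..π / 2, q θ) := by
  rw [← ofReal_integral_eq_lintegral_ofReal
    (hc.integrableOn_Icc.mono_set Ioo_subset_Icc_self) (ae_of_all _ fun θ => h0 θ),
    ← integral_Ioc_eq_integral_Ioo, ← intervalIntegral.integral_of_le (by linarith [pi_pos])]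
  congr 1
  have := hT.intervalIntegral_add_zsmul_eq 4 (-π) (fun a b => hc.intervalIntegrable a b)
  rw [zsmul_eq_mul, show -π + ((4 : ℤ) : ℝ) * (π / 2) = π by push_cast; ring,
    hT.intervalIntegral_add_eq (-π) 0, zero_add] at this
  rw [this, zsmul_eq_mul]
  push_cast
  ring

/-- One common quarter turn: the inequality follows from the one on the sections. -/
theorem turn_step (hK : Ctr K) (hL : Ctr L) (hTK : TurnInv p (p.succAbove r) K)
    (hTL : TurnInv p (p.succAbove r) L)
    (ih : ∀ a b c d : ℝ, (sec2 p r K a b).Nonempty → (sec2 p r L c d).Nonempty →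
      volume (sec2 p r K a b) * volume (sec2 p r L c d)
        ≤ volume (half (sec2 p r K a b) (sec2 p r L c d)) ^ 2) :
    volume K * volume L ≤ volume (half K L) ^ 2 := by
  rcases eq_or_ne (volume K) 0 with hKv | hKv
  · simp [hKv]
  rcases eq_or_ne (volume L) 0 with hLv | hLv
  · simp [hLv]
  obtain ⟨eK, cK, pK, tK, rK⟩ := ray_facts hK hTK hKv
  obtain ⟨eL, cL, pL, tL, rL⟩ := ray_facts hL hTL hLv
  set f := fun θ => (ray p r K θ).toReal
  set g := fun θ => (ray p r L θ).toReal
  obtain ⟨lb, clb, plb, lb0, hlb, hint⟩ := circle cK cL pK pL tK tL rK rL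
  have hpt : ∀ θ, ENNReal.ofReal (lb θ) ≤ ray p r (half K L) θ := fun θ => by
    obtain ⟨a, b, hab, hd, he⟩ := hlb θ
    refine (ENNReal.pow_le_pow_left_iff two_ne_zero).1 ?_
    rw [← hab]
    refine le_trans (le_of_eq ?_) (ray_half hK hL hTK hTL ih hd)
    rw [eK a, eL b, ← ENNReal.ofReal_mul (pK a).le, ← ENNReal.ofReal_mul (sq_nonneg _),
      ← ENNReal.ofReal_pow (lb0 _), hab, he, mul_pow,
      sq_sqrt (mul_nonneg (pK a).le (pL b).le)]
  have hI : ∀ q : ℝ → ℝ, (∀ θ, 0 ≤ q θ) → 0 ≤ ∫ θ in (0 : ℝ)..π / 2, q θ := fun q hq =>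
    intervalIntegral.integral_nonneg (by positivity) fun θ _ => hq θ
  have hW : ENNReal.ofReal (4 * ∫ θ in (0 : ℝ)..π / 2, lb θ) ≤ volume (half K L) := by
    rw [← setLIntegral_four clb plb lb0,
      volume_eq_ray (p := p) (r := r) (ctr_half hK hL).compact]
    exact lintegral_mono fun θ => hpt θ
  refine le_trans ?_ (pow_le_pow_left' hW 2)
  rw [volume_eq_ray (p := p) (r := r) hK.compact, volume_eq_ray (p := p) (r := r) hL.compact,
    lintegral_congr eK, lintegral_congr eL, setLIntegral_four cK tK fun θ => (pK θ).le,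
    setLIntegral_four cL tL fun θ => (pL θ).le, ← ENNReal.ofReal_mul (by
      linarith [hI f fun θ => (pK θ).le]),
    ← ENNReal.ofReal_pow (by linarith [hI lb lb0])]
  refine ENNReal.ofReal_le_ofReal ?_
  have h := pow_le_pow_left₀ (sqrt_nonneg _) hint 2
  rw [sq_sqrt (mul_nonneg (hI f fun θ => (pK θ).le) (hI g fun θ => (pL θ).le))] at h
  simp only [f, g] at h ⊢
  linarith

end

end Vale.Agent.P227.Rot.Quarter
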