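import Vale.Agent.P227.Rot.Higher
import Vale.Agent.P227.Rot.Quarter.Rays

/-!
# P227, quarter turns: reflections and quarter turns of one basis

A reflection removes one dimension and a quarter turn removes two; what is left is the planar case
or the case of space with one symmetry.
-/

namespace Vale.Agent.P227.Rot.Quarter

open MeasureTheory Set Matrix Function Real
open scoped ENNReal

noncomputable section

theorem turnInv_of_mem {n : ℕ} {i j : Fin n} (hij : i ≠ j) {K : Set (Fin n → ℝ)}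
    (h : ∀ x ∈ K, turn i j x ∈ K) : TurnInv i j K := by
  refine Set.Subset.antisymm (Set.image_subset_iff.2 h) fun x hx =>
    ⟨turn i j (turn i j (turn i j x)), h _ (h _ (h _ hx)), ?_⟩
  funext k
  simp only [turn_apply]
  rcases eq_or_ne k i with rfl | hi
  · simp [hij.symm]
  rcases eq_or_ne k j with rfl | hj
  · simp [hij.symm]
  · simp [hi, hj]

theorem card_filter_succAbove {m : ℕ} {p : Fin (m + 1)} {U : Finset (Fin (m + 1))} (hp : p ∈ U) :
    (Finset.univ.filter fun j => p.succAbove j ∈ U).card + 1 = U.card := by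
  have himg : (Finset.univ.filter fun j => p.succAbove j ∈ U).image p.succAbove = U.erase p := by
    ext i
    simp only [Finset.mem_image, Finset.mem_filter, Finset.mem_univ, true_and, Finset.mem_erase]
    refine ⟨fun ⟨j, hj, he⟩ => he ▸ ⟨Fin.succAbove_ne p j, hj⟩, fun ⟨hne, hi⟩ => ?_⟩
    obtain ⟨j, rfl⟩ := Fin.exists_succAbove_eq hne
    exact ⟨j, hi, rfl⟩
  rw [← Finset.card_image_of_injective _ Fin.succAbove_right_injective, himg,
    Finset.card_erase_add_one hp]

/-- A linear map fixing the coordinate `p` acts on the sections. -/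
theorem drop_fixed {m : ℕ} {p : Fin (m + 1)} {U : Finset (Fin (m + 1))} (hp : p ∈ U)
    {T : (Fin (m + 1) → ℝ) →ₗ[ℝ] (Fin (m + 1) → ℝ)} (hTinj : Injective T)
    (hTS : ∀ i ∈ U, Fixes T i) (hT1 : ∃ x, T x ≠ x) (hT2 : ∃ x, T x ≠ negOff U x) :
    ∃ T' : (Fin m → ℝ) →ₗ[ℝ] (Fin m → ℝ), Injective T'
      ∧ (∀ z y, T (p.insertNth z y) = p.insertNth z (T' y))
      ∧ (∀ i ∈ Finset.univ.filter (fun j => p.succAbove j ∈ U), Fixes T' i)
      ∧ (∃ y, T' y ≠ y)
      ∧ ∃ y, T' y ≠ negOff (Finset.univ.filter fun j => p.succAbove j ∈ U) y := by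
  obtain ⟨hfe, hfc⟩ := hTS p hp
  set T' : (Fin m → ℝ) →ₗ[ℝ] (Fin m → ℝ) :=
    { toFun := fun y => p.removeNth (T (p.insertNth 0 y))
      map_add' := fun y w => by
        rw [show (p.insertNth 0 (y + w) : Fin (m + 1) → ℝ)
          = p.insertNth 0 y + p.insertNth 0 w by
            funext i; refine p.succAboveCases ?_ (fun j => ?_) i <;> simp, map_add]
        rfl
      map_smul' := fun c y => by
        rw [show (p.insertNth 0 (c • y) : Fin (m + 1) → ℝ) = c • p.insertNth 0 y by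
          funext i; refine p.succAboveCases ?_ (fun j => ?_) i <;> simp, map_smul]
        rfl }
  have hins : ∀ z y, T (p.insertNth z y) = p.insertNth z (T' y) := by
    intro z y
    have e : (p.insertNth z y : Fin (m + 1) → ℝ)
        = p.insertNth 0 y + z • (Pi.single p 1 : Fin (m + 1) → ℝ) := by
      funext i; refine p.succAboveCases ?_ (fun j => ?_) i <;> simp
    rw [e, map_add, map_smul, hfe]
    funext i
    refine p.succAboveCases ?_ (fun j => ?_) i
    · simp [hfc]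
    · simp [T', Fin.removeNth]
  have split : ∀ x : Fin (m + 1) → ℝ, T x = p.insertNth (x p) (T' (p.removeNth x)) :=
    fun x => by rw [← hins, Fin.insertNth_self_removeNth]
  refine ⟨T', fun y w h => ?_, hins, fun i hi => ?_, ?_, ?_⟩
  · have := hTinj ((hins 0 y).trans ((congrArg (p.insertNth 0) h).trans (hins 0 w).symm))
    exact (Fin.insertNth_inj.1 this).2
  · obtain ⟨he, hc⟩ := hTS _ (Finset.mem_filter.1 hi).2
    refine ⟨?_, fun y => ?_⟩
    · have h := hins 0 (Pi.single i 1)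
      rw [show (p.insertNth 0 (Pi.single i 1) : Fin (m + 1) → ℝ)
        = Pi.single (p.succAbove i) 1 by
          funext k; refine p.succAboveCases ?_ (fun j => ?_) k
          · simp [(Fin.succAbove_ne p i).symm]
          · simp [Pi.single_apply], he] at h
      funext j
      have := congrFun h (p.succAbove j)
      simp [Pi.single_apply] at this ⊢
      exact this.symm
    · have := hc (p.insertNth 0 y)
      rwa [hins, Fin.insertNth_apply_succAbove, Fin.insertNth_apply_succAbove] at this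
  · by_contra! h
    obtain ⟨x, hx⟩ := hT1
    exact hx (by rw [split, h, Fin.insertNth_self_removeNth])
  · by_contra! h
    obtain ⟨x, hx⟩ := hT2
    refine hx ?_
    rw [split, h]
    funext i
    refine p.succAboveCases ?_ (fun j => ?_) i
    · simp [negOff, hp]
    · simp [negOff, Fin.removeNth]

/-- What is left below the covered coordinates `U`. -/
def Rest {n : ℕ} (U : Finset (Fin n)) (K L : Set (Fin n → ℝ)) : Prop :=
  n = U.card + 2 ∨ (n = U.card + 3 ∧ ∃ T : (Fin n → ℝ) →ₗ[ℝ] (Fin n → ℝ), Injective T ∧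
    (∀ i ∈ U, Fixes T i) ∧ (∃ x, T x ≠ x) ∧ (∃ x, T x ≠ negOff U x) ∧ T '' K = K ∧ T '' L = L)

/-- The midpoint inequality with reflections and quarter turns. -/
theorem half_le_turns : ∀ (q n : ℕ) (S U : Finset (Fin n)) (e : Fin q × Fin 2 ↪ Fin n),
    (∀ i, i ∈ U ↔ i ∈ S ∨ ∃ k, e k = i) → (∀ k, e k ∉ S) →
    ∀ K L : Set (Fin n → ℝ), Ctr K → Ctr L → (∀ i ∈ S, FlipInv i K) → (∀ i ∈ S, FlipInv i L) →
      (∀ k, TurnInv (e (k, 0)) (e (k, 1)) K) → (∀ k, TurnInv (e (k, 0)) (e (k, 1)) L) →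
      Rest U K L → volume K * volume L ≤ volume (half K L) ^ 2 := by
  intro q
  induction q with
  | zero =>
    intro n S U e hU _ K L hK hL hSK hSL _ _ hrest
    obtain rfl : U = S := by
      ext i
      rw [hU]
      exact ⟨fun h => h.elim id fun ⟨k, _⟩ => k.1.elim0, Or.inl⟩
    rcases hrest with h | ⟨h, T, hinj, hfix, h1, h2, hTK, hTL⟩
    · obtain ⟨m, rfl⟩ : ∃ m, n = m + 2 := ⟨U.card, h⟩
      exact half_le m U (by omega) K L hK hL hSK hSL
    · obtain ⟨m, rfl⟩ : ∃ m, n = m + 3 := ⟨U.card, h⟩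
      exact half_le_higher m U (by omega) T hinj hfix h1 h2 K L hK hL hSK hSL hTK hTL
  | succ q ih =>
    intro n S U e hU hS K L hK hL hSK hSL heK heL hrest
    have h01 : e (0, 0) ≠ e (0, 1) := fun h => by simpa using e.injective h
    obtain ⟨m, rfl⟩ : ∃ m, n = m + 2 := ⟨n - 2, by
      have := (e (0, 0)).isLt; have := (e (0, 1)).isLt
      have := Fin.val_ne_of_ne h01
      omega⟩
    obtain ⟨r, hr⟩ := Fin.exists_succAbove_eq h01.symm
    set p := e (0, 0) with hp
    have hne : ∀ k : Fin q × Fin 2, e (k.1.succ, k.2) ≠ p ∧ e (k.1.succ, k.2) ≠ p.succAbove r :=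
      fun k => ⟨fun h => Fin.succ_ne_zero k.1 (congrArg Prod.fst (e.injective h)),
        fun h => Fin.succ_ne_zero k.1 (congrArg Prod.fst (e.injective (h.trans hr)))⟩
    have hex : ∀ k : Fin q × Fin 2, ∃ j, p.succAbove (r.succAbove j) = e (k.1.succ, k.2) := by
      intro k
      obtain ⟨j₁, hj₁⟩ := Fin.exists_succAbove_eq (hne k).1
      obtain ⟨j, rfl⟩ := Fin.exists_succAbove_eq (y := r) (x := j₁)
        (fun h => (hne k).2 (by rw [← hj₁, h]))
      exact ⟨j, hj₁⟩
    choose ι hι using hex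
    let e' : Fin q × Fin 2 ↪ Fin m := ⟨ι, fun a b h => by
      have := e.injective ((hι a).symm.trans
        ((congrArg (fun j => p.succAbove (r.succAbove j)) h).trans (hι b)))
      obtain ⟨h₁, h₂⟩ := Prod.ext_iff.1 this
      exact Prod.ext (Fin.succ_injective _ h₁) h₂⟩
    set U₁ := Finset.univ.filter fun j => p.succAbove j ∈ U with hU₁
    set U₂ := Finset.univ.filter fun j => r.succAbove j ∈ U₁ with hU₂
    set S' : Finset (Fin m) := Finset.univ.filter fun j => p.succAbove (r.succAbove j) ∈ S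
    have hpU : p ∈ U := (hU _).2 (Or.inr ⟨_, rfl⟩)
    have hrU : r ∈ U₁ := Finset.mem_filter.2 ⟨Finset.mem_univ _, (hU _).2 (Or.inr ⟨(0, 1), hr.symm⟩)⟩
    have hcard : U₂.card + 2 = U.card := by
      rw [← card_filter_succAbove hpU, ← card_filter_succAbove hrU]
    have hU' : ∀ i, i ∈ U₂ ↔ i ∈ S' ∨ ∃ k, e' k = i := by
      intro i
      simp only [U₂, U₁, S', Finset.mem_filter, Finset.mem_univ, true_and, hU]
      refine or_congr_right ⟨fun ⟨⟨k₁, k₂⟩, hk⟩ => ?_, fun ⟨k, hk⟩ =>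
        ⟨(k.1.succ, k.2), by rw [← hι k, ← hk]; rfl⟩⟩
      rcases Fin.eq_zero_or_eq_succ k₁ with rfl | ⟨k', rfl⟩
      · fin_cases k₂
        · exact absurd hk.symm (Fin.succAbove_ne p _)
        · exact absurd (hr.trans hk) (fun h =>
            (Fin.succAbove_ne r i).symm (Fin.succAbove_right_injective h))
      · refine ⟨(k', k₂), ?_⟩
        have := (hι (k', k₂)).trans hk
        exact Fin.succAbove_right_injective (Fin.succAbove_right_injective this)
    have hS' : ∀ k, e' k ∉ S' := fun k h => hS (k.1.succ, k.2) (by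
      have := (Finset.mem_filter.1 h).2
      rwa [show e' k = ι k from rfl, hι] at this)
    refine turn_step (p := p) (r := r) hK hL (by rw [hr]; exact heK 0) (by rw [hr]; exact heL 0)
      fun a b c d ha hc => ?_
    have hTK0 : TurnInv p (p.succAbove r) K := by rw [hr]; exact heK 0
    have hTL0 : TurnInv p (p.succAbove r) L := by rw [hr]; exact heL 0
    refine ih m S' U₂ e' hU' hS' _ _ (ctr_sec2 hK hTK0 ha) (ctr_sec2 hL hTL0 hc)
      (fun j hj => flipInv_sec (flipInv_sec (hSK _ (Finset.mem_filter.1 hj).2) _) _)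
      (fun j hj => flipInv_sec (flipInv_sec (hSL _ (Finset.mem_filter.1 hj).2) _) _)
      (fun k => turnInv_sec (turnInv_sec (by
        show TurnInv (p.succAbove (r.succAbove (ι (k, 0)))) (p.succAbove (r.succAbove (ι (k, 1)))) K
        rw [hι, hι]; exact heK k.succ) _) _)
      (fun k => turnInv_sec (turnInv_sec (by
        show TurnInv (p.succAbove (r.succAbove (ι (k, 0)))) (p.succAbove (r.succAbove (ι (k, 1)))) L
        rw [hι, hι]; exact heL k.succ) _) _) ?_
    rcases hrest with h | ⟨h, T, hinj, hfix, h1, h2, hTK, hTL⟩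
    · exact Or.inl (by omega)
    · obtain ⟨T₁, i₁, s₁, f₁, a₁, b₁⟩ := drop_fixed hpU hinj hfix h1 h2
      obtain ⟨T₂, i₂, s₂, f₂, a₂, b₂⟩ := drop_fixed hrU i₁ f₁ a₁ b₁
      exact Or.inr ⟨by omega, T₂, i₂, f₂, a₂, b₂, image_sec s₂ (image_sec s₁ hTK a) b,
        image_sec s₂ (image_sec s₁ hTL c) d⟩

/-- Reflections and quarter turns of one basis, all exponents. -/
theorem comb_le_turns {n q : ℕ} {S : Finset (Fin n)} {e : Fin q × Fin 2 ↪ Fin n}
    (hS : ∀ k, e k ∉ S) (bs : Module.Basis (Fin n) ℝ (Fin n → ℝ))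
    {K L : Set (Fin n → ℝ)} (hK : Ctr K) (hL : Ctr L)
    (hSK : ∀ i ∈ S, ∀ x ∈ K, x - (2 * bs.equivFun x i) • bs i ∈ K)
    (hSL : ∀ i ∈ S, ∀ x ∈ L, x - (2 * bs.equivFun x i) • bs i ∈ L)
    (heK : ∀ k, ∀ x ∈ K, x - (bs.equivFun x (e (k, 0)) + bs.equivFun x (e (k, 1))) • bs (e (k, 0))
      + (bs.equivFun x (e (k, 0)) - bs.equivFun x (e (k, 1))) • bs (e (k, 1)) ∈ K)
    (heL : ∀ k, ∀ x ∈ L, x - (bs.equivFun x (e (k, 0)) + bs.equivFun x (e (k, 1))) • bs (e (k, 0))
      + (bs.equivFun x (e (k, 0)) - bs.equivFun x (e (k, 1))) • bs (e (k, 1)) ∈ L)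
    (hrest : n = S.card + 2 * q + 2 ∨ (n = S.card + 2 * q + 3 ∧
      ∃ T : (Fin n → ℝ) →ₗ[ℝ] (Fin n → ℝ), Injective T ∧
        (∀ i ∈ S ∪ Finset.univ.map e, T (bs i) = bs i ∧ ∀ x, bs.equivFun (T x) i = bs.equivFun x i)
        ∧ (∃ x, T x ≠ x)
        ∧ (∃ x, bs.equivFun (T x) ≠ negOff (S ∪ Finset.univ.map e) (bs.equivFun x))
        ∧ T '' K = K ∧ T '' L = L))
    (hKv : volume K ≠ 0) (hLv : volume L ≠ 0) {l : ℝ} (hl : l ∈ Icc (0 : ℝ) 1) :
    volume K ^ (1 - l) * volume L ^ l ≤ volume (comb l K L) := by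
  set E := bs.equivFun
  refine comb_le_equiv E hl ?_
  set U := S ∪ Finset.univ.map e
  have hU : U.card = S.card + 2 * q := by
    simp only [U]
    rw [Finset.card_union_of_disjoint, Finset.card_map, Finset.card_univ, Fintype.card_prod,
      Fintype.card_fin, Fintype.card_fin, mul_comm]
    exact Finset.disjoint_right.2 fun i hi => by
      obtain ⟨k, -, rfl⟩ := Finset.mem_map.1 hi
      exact hS k
  have he01 : ∀ k, e (k, 0) ≠ e (k, 1) := fun k h => by simpa using e.injective h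
  have hEc : Continuous E := E.toLinearMap.continuous_of_finiteDimensional
  have hctr : ∀ A, Ctr A → Ctr (E '' A) := fun A hA =>
    { compact := hA.compact.image hEc
      convex := hA.convex.linear_image E.toLinearMap
      nonempty := hA.nonempty.image E
      neg_mem := by
        rintro _ ⟨a, ha, rfl⟩
        exact ⟨-a, hA.neg_mem a ha, map_neg E a⟩ }
  have hflip : ∀ A, (∀ i ∈ S, ∀ x ∈ A, x - (2 * E x i) • bs i ∈ A) →
      ∀ i ∈ S, FlipInv i (E '' A) := by
    rintro A hA i hi _ ⟨x, hx, rfl⟩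
    refine ⟨_, hA i hi x hx, ?_⟩
    funext j
    rw [map_sub, map_smul]
    rcases eq_or_ne j i with rfl | h
    · simp [E, flip]; ring
    · simp [E, flip, h]
  have hturn : ∀ A, (∀ k, ∀ x ∈ A, x - (E x (e (k, 0)) + E x (e (k, 1))) • bs (e (k, 0))
      + (E x (e (k, 0)) - E x (e (k, 1))) • bs (e (k, 1)) ∈ A) →
      ∀ k, TurnInv (e (k, 0)) (e (k, 1)) (E '' A) := by
    intro A hA k
    refine turnInv_of_mem (he01 k) ?_
    rintro _ ⟨x, hx, rfl⟩
    refine ⟨_, hA k x hx, ?_⟩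
    funext j
    rw [map_add, map_sub, map_smul, map_smul, turn_apply]
    rcases eq_or_ne j (e (k, 0)) with rfl | h0
    · simp [E, he01 k]
    rcases eq_or_ne j (e (k, 1)) with rfl | h1
    · simp [E, (he01 k).symm]
    · simp [E, h0, h1]
  have hv : ∀ A, volume A ≠ 0 → volume (E '' A) ≠ 0 := fun A hA => by
    rw [show volume (E '' A) = ENNReal.ofReal |LinearMap.det E.toLinearMap| * volume A from
      Measure.addHaar_image_linearMap volume E.toLinearMap A]
    exact mul_ne_zero (by simp [(LinearEquiv.isUnit_det' E).ne_zero]) hA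
  set G := fun A : Set (Fin n → ℝ) =>
    Ctr A ∧ (∀ i ∈ S, FlipInv i A) ∧ ∀ k, TurnInv (e (k, 0)) (e (k, 1)) A
  have hclG : ∀ A B l, G A → G B → G (comb l A B) := fun A B l hA hB =>
    ⟨ctr_comb hA.1 hB.1 l, fun i hi => flipInv_comb hA.1 hB.1 l (hA.2.1 i hi) (hB.2.1 i hi),
      fun k => linear_comb_inv (turn_injective (he01 k)) (hA.2.2 k) (hB.2.2 k) l⟩
  have hmem : ∀ i, i ∈ U ↔ i ∈ S ∨ ∃ k, e k = i := fun i => by simp [U]
  rcases hrest with h | ⟨h, T, hTinj, hTS, ⟨x₁, hx₁⟩, ⟨x₂, hx₂⟩, hTK, hTL⟩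
  · exact comb_le G (fun _ h => h.1) hclG
      (fun A B hA hB => half_le_turns q n S U e hmem hS A B hA.1 hB.1 hA.2.1 hB.2.1 hA.2.2 hB.2.2
        (Or.inl (by omega)))
      ⟨hctr K hK, hflip K hSK, hturn K heK⟩ ⟨hctr L hL, hflip L hSL, hturn L heL⟩
      (hv K hKv) (hv L hLv) hl
  · set T₀ : (Fin n → ℝ) →ₗ[ℝ] (Fin n → ℝ) := E.toLinearMap ∘ₗ T ∘ₗ E.symm.toLinearMap
    have hT₀ : ∀ x, T₀ (E x) = E (T x) := fun x => by simp [T₀]
    have hinj : Injective T₀ := E.injective.comp (hTinj.comp E.symm.injective)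
    have hfix : ∀ i ∈ U, Fixes T₀ i := by
      intro i hi
      obtain ⟨h1, h2⟩ := hTS i hi
      have he : E (bs i) = Pi.single i 1 := by
        funext j; simp [E, Module.Basis.equivFun_self, Pi.single_apply, eq_comm]
      refine ⟨by rw [← he, hT₀, h1], fun x => ?_⟩
      rw [← E.apply_symm_apply x, hT₀]
      exact h2 _
    have him : ∀ A, T '' A = A → T₀ '' (E '' A) = E '' A := fun A hA => by
      conv_rhs => rw [← hA]
      simp only [Set.image_image, hT₀]
    exact comb_le (fun A => G A ∧ T₀ '' A = A) (fun _ h => h.1.1)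
      (fun A B l hA hB => ⟨hclG A B l hA.1 hB.1, linear_comb_inv hinj hA.2 hB.2 l⟩)
      (fun A B hA hB => half_le_turns q n S U e hmem hS A B hA.1.1 hB.1.1 hA.1.2.1 hB.1.2.1
        hA.1.2.2 hB.1.2.2 (Or.inr ⟨by omega, T₀, hinj, hfix,
          ⟨E x₁, by rw [hT₀]; exact fun h => hx₁ (E.injective h)⟩,
          ⟨E x₂, by rwa [hT₀]⟩, hA.2, hB.2⟩))
      ⟨⟨hctr K hK, hflip K hSK, hturn K heK⟩, him K hTK⟩
      ⟨⟨hctr L hL, hflip L hSL, hturn L heL⟩, him L hTL⟩
      (hv K hKv) (hv L hLv) hl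

end

end Vale.Agent.P227.Rot.Quarter
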